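import Vale.Agent.P297Z.Diff.Plane

/-!
# The dual of the module of sections for the trace form
-/

namespace Vale.Agent.P297Z.SB

open Vale.Agent.P297 (Place)
open Vale.Agent.P297Z.Sf _root_.P297Z.Diff MvPolynomial

variable {K : Type} [Field K] [Algebra ℂ K] {S : Surf K}

theorem mem_nonunits_iff {W : Submodule ℂ K} (C : Crv W) {z : K} :
    z ∈ C.pl.ring.nonunits ↔ cv C z < 1 := by
  by_cases hz : z = 0
  · simp [hz]
  rw [ValuationSubring.mem_nonunits_iff_or, ← Pl.ord_pos_iff_val _ hz,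
    ← Pl.ord_nonneg_iff _ (inv_ne_zero hz), Pl.ord_inv]
  simp [hz]

theorem charZero (K : Type) [Field K] [Algebra ℂ K] : CharZero K :=
  charZero_of_injective_algebraMap (algebraMap ℂ K).injective

/-- A valuation ring over a curve of the plane is the ring of a curve of the surface. -/
theorem exists_crv_over (hL : S.Loc) (i : Fin 3) {U : MvPolynomial (Fin 2) ℂ} (hU : Prime U)
    (V : ValuationSubring K) (hV : ∀ p : MvPolynomial (Fin 2) ℂ, aeval (yc S i) p ∈ V)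
    (hc : ∀ p : MvPolynomial (Fin 2) ℂ, aeval (yc S i) p ∈ V.nonunits ↔ U ∣ p) :
    ∃ C : Crv S.W, C.pl.ring = V ∧ C.In (S.x i) := by
  have hA : ∀ a ∈ chart S.W (S.x i), a ∈ V := fun a ha =>
    mem_of_integral (R := Rp S i) (fun r hr => by
      obtain ⟨p, rfl⟩ := (mem_Rp S).1 hr
      exact hV p) (hL.int i a ha)
  have hm : ∀ p : MvPolynomial (Fin 2) ℂ, aeval (yc S i) p ∈ chart S.W (S.x i) := fun p =>
    Rp_le S i ((mem_Rp S).2 ⟨p, rfl⟩)
  let ψ : chart S.W (S.x i) →+* V :=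
    (chart S.W (S.x i)).val.toRingHom.codRestrict V.toSubring fun a => hA a a.2
  let P : Ideal (chart S.W (S.x i)) := (IsLocalRing.maximalIdeal V).comap ψ
  have hP : ∀ a, a ∈ P ↔ (a : K) ∈ V.nonunits := fun a =>
    (ValuationSubring.coe_mem_nonunits_iff (a := ψ a)).symm
  have hp : P.IsPrime := Ideal.comap_isPrime _ _
  have hu0 : aeval (yc S i) U ≠ 0 := (map_ne_zero_iff _ (yc_trb hL i).1).2 hU.ne_zero
  have huV : aeval (yc S i) U ∈ V.nonunits := (hc U).2 dvd_rfl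
  have hP0 : P ≠ ⊥ := fun h => by
    have h1 : (⟨_, hm U⟩ : chart S.W (S.x i)) ∈ P := (hP _).2 huV
    rw [h, Ideal.mem_bot] at h1
    exact hu0 (congrArg Subtype.val h1)
  have hPm : ¬P.IsMaximal := fun hmax => by
    let x : Pt S.W := ⟨loc _ P hp, S.x i, S.x_mem i, S.x_ne i, P, hmax, rfl⟩
    have key : ∀ j : Fin 2, ∃ c : ℂ, U ∣ X j - C c := by
      intro j
      obtain ⟨c, hc'⟩ := hL.val x (yc S i j) (le_loc _ P hp (Rp_le S i (yc_mem S i j)))
      refine ⟨c, (hc _).1 ?_⟩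
      have h1 : aeval (yc S i) (X j - C c : MvPolynomial (Fin 2) ℂ) =
          yc S i j - algebraMap ℂ K c := by simp
      by_cases h0 : aeval (yc S i) (X j - C c : MvPolynomial (Fin 2) ℂ) = 0
      · rw [h0]
        exact zero_mem _
      · rw [← h1] at hc'
        by_contra h2
        exact hc'.2.resolve_left h0 (inv_mem_loc hp (b := ⟨_, hm _⟩) fun h3 => h2 ((hP _).1 h3))
    obtain ⟨a, ha⟩ := key 0
    obtain ⟨b, hb⟩ := key 1
    exact not_dvd_both hU ha hb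
  obtain ⟨C, hC⟩ := hL.crv_of_prime _ (S.x_mem i) (S.x_ne i) P hp hP0 hPm
  have hCV : C.pl.ring = V := by
    refine Pl.ring_eq_of_le (fun z hz => ?_) fun h => ?_
    · obtain ⟨a, b, hb, hab⟩ := (hC z).1 hz
      rw [hP, ValuationSubring.mem_nonunits_iff_or, not_or, not_not] at hb
      have h1 : z = a * (b : K)⁻¹ := by rw [← hab, mul_inv_cancel_right₀ hb.1]
      rw [h1]
      exact mul_mem (hA a a.2) hb.2
    · rw [ValuationSubring.mem_nonunits_iff_or, h] at huV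
      exact huV.elim hu0 fun h1 => h1 (ValuationSubring.mem_top _)
  exact ⟨C, hCV, S.x_ne i, fun a ha => hCV ▸ hA _ (div_mem_chart ha)⟩

theorem ord_aux (C : Crv S.W) {u f : K} (hu : u ≠ 0) (hf : f ≠ 0) (i : Fin 3) (n : ℤ) :
    C.ord (u * (f / (S.x 0 ^ (3 : ℤ) * S.x i ^ (n - 3)))) =
      C.ord u + C.ord f - 3 * C.ord (S.x 0) - (n - 3) * C.ord (S.x i) := by
  have h0 := zpow_ne_zero (3 : ℤ) (S.x_ne 0)
  have hi := zpow_ne_zero (n - 3) (S.x_ne i)
  unfold Crv.ord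
  rw [Pl.ord_mul _ hu (div_ne_zero hf (mul_ne_zero h0 hi)), Pl.ord_div _ hf (mul_ne_zero h0 hi),
    Pl.ord_mul _ h0 hi, Pl.ord_zpow, Pl.ord_zpow]
  ring

/-- The trace of a section of the canonical module is regular on each chart of the plane. -/
theorem tr_div_mem_Rp (hL : S.Loc) {n : ℤ} {f : K} (hf : f ∈ M S.kap n) (i : Fin 3) :
    S.tr n f / S.x i ^ (n - 3) ∈ Rp S i := by
  have := hL.findim
  have := charZero K
  by_cases hf0 : f = 0
  · simp [hf0, Surf.tr]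
  have hm : ∀ p : MvPolynomial (Fin 2) ℂ, aeval (yc S i) p ∈ S.F := fun p =>
    Rp_le_F S i ((mem_Rp S).2 ⟨p, rfl⟩)
  let φ : MvPolynomial (Fin 2) ℂ →+* S.F :=
    (aeval (yc S i)).toRingHom.codRestrict S.F.toSubring hm
  obtain ⟨p, hp⟩ := trace_mem_range (K := K) φ
    (fun p q h => (yc_trb hL i).1 (congrArg Subtype.val h))
    (fun z => by
      obtain ⟨a, b, hb, h⟩ := exists_frac_F S i z.2
      exact ⟨a, b, fun h0 => hb (by rw [h0, map_zero]), Subtype.ext h⟩)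
    (x := f / (S.x 0 ^ (3 : ℤ) * S.x i ^ (n - 3))) fun U hU V hV hc => by
      obtain ⟨C, rfl, hC⟩ := exists_crv_over hL i hU V hV hc
      obtain ⟨j, hj⟩ := exists_not_dvd_pderiv hU
      have hu0 : aeval (yc S i) U ≠ 0 := (map_ne_zero_iff _ (yc_trb hL i).1).2 hU.ne_zero
      have h1 := kap_apply hL hC hU.ne_zero ((mem_nonunits_iff C).1 ((hc U).2 dvd_rfl)) (j := j)
        (le_antisymm ((Pl.mem_ring_iff _ _).1 (hV _))
          (not_lt.1 fun h => hj ((hc _).1 ((mem_nonunits_iff C).2 h))))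
      have h2 := (mem_M.1 hf).resolve_left hf0 C
      rw [hyp_apply S.model hC (S.x_mem i)] at h2
      change aeval (yc S i) U * _ ∈ _
      rw [mem_nonunits_iff, ← Pl.ord_pos_iff_val _ (mul_ne_zero hu0 (div_ne_zero hf0 (mul_ne_zero
        (zpow_ne_zero _ (S.x_ne 0)) (zpow_ne_zero _ (S.x_ne i)))))]
      have h3 := ord_aux C hu0 hf0 i n
      unfold Crv.ord at *
      rw [h3]
      linarith
  rw [tr_div, ← hp]
  exact (mem_Rp S).2 ⟨p, rfl⟩

theorem tr_mem_Xp (hL : S.Loc) {n : ℤ} {f : K} (hf : f ∈ M S.kap n) :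
    S.tr n f ∈ S.Xp (n - 3) :=
  mem_Xp hL (tr_div_mem_Rp hL hf 0) (tr_div_mem_Rp hL hf 1)

theorem mem_M_of_tr (hL : S.Loc) {D : Sf.Div S.W} {m : ℤ} {g : K}
    (h : ∀ j, ∀ f ∈ M D j, S.tr (j + m) (g * f) ∈ S.Xp (j + m - 3)) : g ∈ M (S.kap - D) m := by
  have := hL.findim
  have := charZero K
  by_cases hg0 : g = 0
  · exact hg0 ▸ zero_mem _
  refine mem_M.2 (Or.inr fun C => ?_)
  obtain ⟨i, hC⟩ := hL.crv_cover C
  obtain ⟨U, hU0, hU, j, hj⟩ := exists_eqn hL hC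
  obtain ⟨n, f, hf, hf0, hfC⟩ := exists_gen S.model C D
  obtain ⟨t, ht0, ht⟩ := Pl.exists_ord_eq_one C.pl
  have hu0 : aeval (yc S i) U ≠ 0 := (map_ne_zero_iff _ (yc_trb hL i).1).2 hU0
  have h1 := val_lt_one_of_trace (F := S.F) (cv C) (unif C ht0 ht).char
    (A := (chart S.W (S.x i)).toSubring) (In.loc hC (S.x_mem i))
    (z := g * f / (S.x 0 ^ (3 : ℤ) * S.x i ^ (n + m - 3))) (fun a ha => by
      obtain ⟨l, hl⟩ := exists_pow_of_mem_chart (S.x_mem i) (S.x_ne i) ha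
      have h2 := div_mem_Rp (h _ _ (mul_mem_M_pow S.model hf hl)) i
      rw [tr_div] at h2
      have h3 : g * f / (S.x 0 ^ (3 : ℤ) * S.x i ^ (n + m - 3)) * a =
          g * (f * (a * S.x i ^ l)) / (S.x 0 ^ (3 : ℤ) * S.x i ^ (n + l + m - 3)) := by
        have h0 := S.x_ne 0
        have hi := S.x_ne i
        rw [show (n + l + m - 3 : ℤ) = n + m - 3 + l by ring, zpow_add₀ hi, zpow_natCast]
        field_simp
      rw [h3]
      exact In.le hC (Rp_le S i h2))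
    (u := ⟨_, Rp_le_F S i ((mem_Rp S).2 ⟨U, rfl⟩)⟩) hU
  change cv C (aeval (yc S i) U * _) < 1 at h1
  rw [← Pl.ord_pos_iff_val _ (mul_ne_zero hu0 (div_ne_zero (mul_ne_zero hg0 hf0) (mul_ne_zero
    (zpow_ne_zero _ (S.x_ne 0)) (zpow_ne_zero _ (S.x_ne i)))))] at h1
  have h2 := ord_aux C hu0 (mul_ne_zero hg0 hf0) i (n + m)
  have h3 := kap_apply hL hC hU0 hU hj
  have h4 := Pl.ord_mul C.pl hg0 hf0
  rw [hyp_apply S.model hC (S.x_mem i)] at hfC ⊢
  rw [Finsupp.sub_apply]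
  unfold Crv.ord at *
  rw [h2, h4] at h1
  linarith

theorem dual_of_loc (hL : S.Loc) : S.Dual := by
  refine fun D m g => ⟨fun hg j f hf => tr_mem_Xp hL ?_, mem_M_of_tr hL⟩
  have h := mul_mem_M hg hf
  rwa [sub_add_cancel, add_comm m j] at h

theorem dual : DUAL := fun _ _ _ _ hL _ => dual_of_loc hL

end Vale.Agent.P297Z.SB
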