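import Mathlib.RingTheory.Trace.Basic
import Mathlib.RingTheory.MvPolynomial.Symmetric.NewtonIdentities
import Mathlib.RingTheory.Polynomial.Vieta
import Mathlib.RingTheory.Valuation.LocalSubring
import Mathlib.FieldTheory.IsAlgClosed.AlgebraicClosure

/-!
# Traces and valuations

Two facts on the trace of a finite separable field extension `K / F`.
-/

open Finset Polynomial

namespace P297Z.Diff

variable {F K : Type*} [Field F] [Field K] [Algebra F K] [FiniteDimensional F K]
  [Algebra.IsSeparable F K]

/-- Newton: if all power sums have value `< 1`, so do the elementary symmetric functions. -/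
theorem esymm_small {Γ : Type*} [LinearOrderedCommGroupWithZero Γ] (w : Valuation F Γ)
    (hw : ∀ n : ℕ, n ≠ 0 → w (n : F) = 1) {E : Type*} [Field E] [Algebra F E] {ι : Type*}
    [Fintype ι] (r : ι → E)
    (hp : ∀ n : ℕ, n ≠ 0 → ∃ c : F, algebraMap F E c = ∑ i, r i ^ n ∧ w c < 1) (k : ℕ) :
    ∃ c : F, algebraMap F E c = MvPolynomial.aeval r (MvPolynomial.esymm ι F k) ∧ w c ≤ 1 ∧
      (k ≠ 0 → w c < 1) := by
  classical
  induction k using Nat.strong_induction_on with
  | _ k ih =>
  rcases Nat.eq_zero_or_pos k with rfl | hk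
  · exact ⟨1, by simp, by simp, fun h => (h rfl).elim⟩
  choose! c hc using ih
  choose! p hp using hp
  have hk0 : (k : F) ≠ 0 := by
    intro h
    have := hw k hk.ne'
    rw [h, map_zero] at this
    exact zero_ne_one this
  have key := congrArg (MvPolynomial.aeval r) (MvPolynomial.mul_esymm_eq_sum ι F k)
  have hlt : w ((k : F)⁻¹ * ((-1) ^ (k + 1) *
      ∑ a ∈ antidiagonal k with a.1 < k, (-1) ^ a.1 * c a.1 * p a.2)) < 1 := by
    rw [map_mul, map_mul, map_inv₀, hw k hk.ne', inv_one, one_mul, map_pow, Valuation.map_neg,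
      map_one, one_pow, one_mul]
    refine w.map_sum_lt one_ne_zero fun a ha => ?_
    rw [mem_filter, mem_antidiagonal] at ha
    have h2 : a.2 ≠ 0 := by omega
    rw [map_mul, map_mul, map_pow, Valuation.map_neg, map_one, one_pow, one_mul]
    calc w (c a.1) * w (p a.2) ≤ 1 * w (p a.2) := by gcongr; exact (hc a.1 ha.2).2.1
      _ < 1 := by rw [one_mul]; exact (hp a.2 h2).2
  refine ⟨_, ?_, hlt.le, fun _ => hlt⟩
  have hkE : (k : E) ≠ 0 := by
    rw [← map_natCast (algebraMap F E)]
    exact (_root_.map_ne_zero _).2 hk0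
  apply mul_left_cancel₀ hkE
  simp only [map_mul, map_natCast, map_pow, map_neg, map_one, map_sum, map_inv₀] at key ⊢
  rw [key, ← mul_assoc, mul_inv_cancel₀ hkE, one_mul]
  congr 1
  refine sum_congr rfl fun a ha => ?_
  rw [mem_filter, mem_antidiagonal] at ha
  have h2 : a.2 ≠ 0 := by omega
  rw [(hc a.1 ha.2).1, (hp a.2 h2).1]
  simp [MvPolynomial.psum]

/-- If the traces of all positive powers of `s` have value `< 1`, so has `s`. -/
theorem lt_one_of_trace_pow {Γ : Type*} [LinearOrderedCommGroupWithZero Γ] (v : Valuation K Γ)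
    (hv : ∀ n : ℕ, n ≠ 0 → v (n : K) = 1) {s : K}
    (hs : ∀ n : ℕ, n ≠ 0 → v (algebraMap F K (Algebra.trace F K (s ^ n))) < 1) : v s < 1 := by
  classical
  let E := AlgebraicClosure K
  let r : (K →ₐ[F] E) → E := fun σ => σ s
  have hw : ∀ n : ℕ, n ≠ 0 → (v.comap (algebraMap F K)) (n : F) = 1 := by
    intro n hn
    rw [Valuation.comap_apply, map_natCast, hv n hn]
  have h1 := esymm_small (v.comap (algebraMap F K)) hw r (fun n hn =>
    ⟨Algebra.trace F K (s ^ n), by rw [trace_eq_sum_embeddings E]; simp [r], hs n hn⟩)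
  choose c hc using h1
  set d := Fintype.card (K →ₐ[F] E) with hd
  have h2 := congrArg (Polynomial.eval (algebraMap K E s))
    (Multiset.prod_X_sub_X_eq_sum_esymm (Finset.univ.val.map r))
  have h3 : Polynomial.eval (algebraMap K E s)
      (((Finset.univ.val.map r).map fun t => X - C t).prod) = 0 := by
    rw [Polynomial.eval_multiset_prod]
    refine Multiset.prod_eq_zero ?_
    simp only [Multiset.map_map, Multiset.mem_map, Function.comp]
    exact ⟨IsScalarTower.toAlgHom F K E, by simp, by simp [r]⟩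
  rw [h3, Multiset.card_map, Finset.card_val, Finset.card_univ, ← hd, eval_finsetSum] at h2
  have h4 : ∑ j ∈ range (d + 1), (-1) ^ j * (algebraMap F K (c j) * s ^ (d - j)) = 0 := by
    apply (algebraMap K E).injective
    rw [map_zero, h2, map_sum]
    refine sum_congr rfl fun j _ => ?_
    rw [← MvPolynomial.aeval_esymm_eq_multiset_esymm _ F, ← (hc j).1]
    simp [← IsScalarTower.algebraMap_apply]
  by_contra hle
  rw [not_lt] at hle
  have hs0 : s ≠ 0 := by
    rintro rfl
    rw [map_zero] at hle
    exact absurd hle (by simp)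
  have hc0 : c 0 = 1 := by
    apply (algebraMap F E).injective
    rw [(hc 0).1]
    simp
  rw [sum_range_succ', hc0] at h4
  have h5 : s ^ d = -∑ j ∈ range d, (-1) ^ (j + 1) * (algebraMap F K (c (j + 1)) *
      s ^ (d - (j + 1))) := by
    rw [eq_neg_iff_add_eq_zero, add_comm, ← h4]
    simp
  have hvs : v s ≠ 0 := (map_ne_zero v).2 hs0
  have h6 : v (s ^ d) < v (s ^ d) := by
    conv_lhs => rw [h5, Valuation.map_neg]
    refine v.map_sum_lt (by rw [map_pow]; exact pow_ne_zero _ hvs) fun j _ => ?_
    rw [map_mul, map_mul, map_pow, Valuation.map_neg, map_one, one_pow, one_mul, map_pow, map_pow]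
    have h7 : v s ^ (d - (j + 1)) ≤ v s ^ d := pow_le_pow_right₀ hle (Nat.sub_le _ _)
    have h8 : v (algebraMap F K (c (j + 1))) < 1 := (hc (j + 1)).2.2 (Nat.succ_ne_zero j)
    calc v (algebraMap F K (c (j + 1))) * v s ^ (d - (j + 1))
        ≤ v (algebraMap F K (c (j + 1))) * v s ^ d := by gcongr
      _ < 1 * v s ^ d := by
          exact mul_lt_mul_of_pos_right h8 (pow_pos (zero_lt_iff.2 hvs) d)
      _ = v s ^ d := one_mul _
  exact lt_irrefl _ h6

omit [Algebra F K] [FiniteDimensional F K] [Algebra.IsSeparable F K] in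
theorem mem_nonunits_comap {V : ValuationSubring K} {f : F →+* K} {z : F} :
    z ∈ (V.comap f).nonunits ↔ f z ∈ V.nonunits := by
  rw [ValuationSubring.mem_nonunits_iff_or, ValuationSubring.mem_nonunits_iff_or,
    ValuationSubring.mem_comap, map_inv₀, _root_.map_eq_zero]

omit [Algebra F K] [FiniteDimensional F K] [Algebra.IsSeparable F K] in
/-- A valuation ring of `F` is the trace of a valuation ring of any extension field. -/
theorem exists_comap_eq (R : ValuationSubring F) (f : F →+* K) :
    ∃ W : ValuationSubring K, W.comap f = R := by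
  obtain ⟨W, h, hW⟩ := IsLocalRing.exists_factor_valuationRing (f.comp R.subtype)
  refine ⟨W, le_antisymm (fun z hz => ?_) fun z hz => h ⟨z, hz⟩⟩
  by_contra hzR
  have hz0 : z ≠ 0 := by
    rintro rfl
    exact hzR R.zero_mem
  have h1 : z⁻¹ ∈ R := (R.mem_or_inv_mem z).resolve_left hzR
  have h2 : IsUnit ((f.comp R.subtype).codRestrict W.toSubring h ⟨z⁻¹, h1⟩) := by
    refine IsUnit.of_mul_eq_one ⟨f z, hz⟩ (Subtype.ext ?_)
    simp [hz0]
  obtain ⟨b, hb⟩ := (hW.1 _ h2).exists_right_inv
  have h3 : z⁻¹ * (b : F) = 1 := congrArg Subtype.val hb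
  have h4 : z = b := by
    field_simp at h3
    exact h3.symm
  exact hzR (h4 ▸ b.2)

/-- If `y` lies in the maximal ideal of every valuation ring of `K` which meets `F` in the
valuation ring `R`, then its trace lies in the maximal ideal of `R`. -/
theorem trace_mem_nonunits (R : ValuationSubring F) {y : K}
    (hy : ∀ V : ValuationSubring K, V.comap (algebraMap F K) = R → y ∈ V.nonunits) :
    Algebra.trace F K y ∈ R.nonunits := by
  classical
  let E := AlgebraicClosure K
  obtain ⟨W, hWR⟩ := exists_comap_eq R (algebraMap F E)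
  have h1 : ∀ σ : K →ₐ[F] E, σ y ∈ W.nonunits := by
    intro σ
    have h2 : (W.comap (σ : K →+* E)).comap (algebraMap F K) = R := by
      rw [ValuationSubring.comap_comap, ← hWR]
      congr 1
      ext a
      simp
    exact mem_nonunits_comap.1 (hy _ h2)
  rw [← hWR, mem_nonunits_comap, trace_eq_sum_embeddings E]
  exact sum_mem fun σ _ => h1 σ

end P297Z.Diff
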