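import Vale.Agent.P297Z.Diff.Jac
import Vale.Agent.P297Z.Diff.Trace

/-!
# Dual derivations of a transcendence basis; the codifferent over a factorial ring
-/

open TensorProduct KaehlerDifferential

namespace P297Z.Diff

section Ext

variable {k P L : Type*} [CommRing k] [CommRing P] [CommRing L] [Algebra k P] [Algebra k L]
  [Algebra P L] [IsScalarTower k P L] [Algebra.FormallyEtale P L]

theorem exists_ext (D : Derivation k P L) :
    ∃ D' : Derivation k L L, ∀ a, D' (algebraMap P L a) = D a := by
  refine ⟨((D.liftKaehlerDifferential.liftBaseChange L) ∘ₗ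
    (tensorKaehlerEquivOfFormallyEtale k P L).symm.toLinearMap).compDer
      (KaehlerDifferential.D k L), fun a => ?_⟩
  change (D.liftKaehlerDifferential.liftBaseChange L)
    ((tensorKaehlerEquivOfFormallyEtale k P L).symm (KaehlerDifferential.D k L (algebraMap P L a)))
      = _
  rw [tensorKaehlerEquivOfFormallyEtale_symm_D_algebraMap, LinearMap.liftBaseChange_tmul]
  simp

theorem eq_zero_of_base {d : Derivation k L L} (h : ∀ a : P, d (algebraMap P L a) = 0) :
    d = 0 := by
  have h1 : d.liftKaehlerDifferential ∘ₗ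
      (tensorKaehlerEquivOfFormallyEtale k P L).toLinearMap = 0 := by
    refine TensorProduct.AlgebraTensorModule.curry_injective ?_
    refine LinearMap.ext fun l => ?_
    refine LinearMap.ext_on_range (v := fun a : P => KaehlerDifferential.D k P a)
      (KaehlerDifferential.span_range_derivation k P) fun a => ?_
    change d.liftKaehlerDifferential (tensorKaehlerEquivOfFormallyEtale k P L
      (l ⊗ₜ[P] KaehlerDifferential.D k P a)) = 0
    rw [tensorKaehlerEquivOfFormallyEtale_apply, mapBaseChange_tmul, map_D, map_smul,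
      Derivation.liftKaehlerDifferential_comp_D, h, smul_zero]
  ext l
  rw [← Derivation.liftKaehlerDifferential_comp_D d l]
  obtain ⟨z, hz⟩ := (tensorKaehlerEquivOfFormallyEtale k P L).surjective
    (KaehlerDifferential.D k L l)
  rw [← hz]
  exact congrArg (fun F => F z) h1

end Ext

section Coord

variable {k K : Type*} [Field k] [CharZero k] [Field K] [Algebra k K] {ι : Type*} [DecidableEq ι]

/-- A transcendence basis has a dual basis of derivations. -/
theorem exists_coord {y : ι → K} (hy : IsTranscendenceBasis k y) :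
    ∃ d : ι → Derivation k K K, Coord y d := by
  let P := MvPolynomial ι k
  let : Algebra P K := (MvPolynomial.aeval y : P →ₐ[k] K).toRingHom.toAlgebra
  have hP : ∀ p : P, algebraMap P K p = MvPolynomial.aeval y p := fun _ => rfl
  have : IsScalarTower k P K := IsScalarTower.of_algebraMap_eq fun c => by
    rw [hP, AlgHom.commutes]
  have : FaithfulSMul P K := (faithfulSMul_iff_algebraMap_injective P K).2 hy.1
  let := FractionRing.liftAlgebra P K
  have : Algebra.IsAlgebraic P K := by
    have h1 := hy.isAlgebraic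
    exact Algebra.IsAlgebraic.of_ringHom_of_comp_eq hy.1.aevalEquiv.toRingEquiv.toRingHom
      (RingHom.id K) hy.1.aevalEquiv.surjective Function.injective_id
      (RingHom.ext fun p => hy.1.algebraMap_aevalEquiv p)
  have : Algebra.IsAlgebraic (FractionRing P) K :=
    Algebra.IsAlgebraic.extendScalars (R := P) (IsFractionRing.injective P _)
  have : CharZero (FractionRing P) := algebraRat.charZero _
  have : Algebra.FormallyEtale (FractionRing P) K := Algebra.FormallyEtale.of_isSeparable _ _
  have : Algebra.FormallyEtale P (FractionRing P) :=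
    Algebra.FormallyEtale.of_isLocalization (nonZeroDivisors P)
  have : Algebra.FormallyEtale P K := Algebra.FormallyEtale.comp P (FractionRing P) K
  choose d hd using fun i : ι =>
    exists_ext (k := k) (P := P) (L := K) (MvPolynomial.mkDerivation k (Pi.single i (1 : K)))
  refine ⟨d, fun i j => ?_, fun w hw => eq_zero_of_base (P := P) fun p => ?_⟩
  · have h1 := hd i (MvPolynomial.X j)
    rw [hP, MvPolynomial.aeval_X, MvPolynomial.mkDerivation_X, Pi.single_apply] at h1
    rw [h1]
    simp only [eq_comm]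
  · rw [hP]
    induction p using MvPolynomial.induction_on with
    | C a => simp
    | add p q hp hq => rw [map_add, map_add, hp, hq, add_zero]
    | mul_X p j hp => rw [map_mul, Derivation.leibniz, hp, MvPolynomial.aeval_X, hw]; simp

end Coord

section Codiff

variable {F K : Type*} [Field F] [Field K] [Algebra F K] [FiniteDimensional F K]
  [Algebra.IsSeparable F K]

/-- An element `z` of the codifferent of `A` satisfies `v (u z) < 1` for every `u` in the centre
of `v` on the base ring. -/
theorem val_lt_one_of_trace {Γ : Type*} [LinearOrderedCommGroupWithZero Γ] (v : Valuation K Γ)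
    (hv : ∀ n : ℕ, n ≠ 0 → v (n : K) = 1) {A : Subring K}
    (hloc : ∀ z, v z ≤ 1 → ∃ a ∈ A, ∃ s ∈ A, v s = 1 ∧ z * s = a) {z : K}
    (hz : ∀ a ∈ A, v (algebraMap F K (Algebra.trace F K (z * a))) ≤ 1) {u : F}
    (hu : v (algebraMap F K u) < 1) : v (algebraMap F K u * z) < 1 := by
  by_contra hcon
  rw [not_lt] at hcon
  have h0 : algebraMap F K u * z ≠ 0 := by
    intro h0
    rw [h0, map_zero] at hcon
    exact absurd hcon (by simp)
  obtain ⟨a, ha, s, hs, hs1, hsa⟩ := hloc (algebraMap F K u * z)⁻¹ (by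
    rw [map_inv₀]
    exact inv_le_one_of_one_le₀ hcon)
  have h1 : s = algebraMap F K u * z * a := by
    rw [← hsa, ← mul_assoc, mul_inv_cancel₀ h0, one_mul]
  have h2 := lt_one_of_trace_pow (F := F) v hv (s := s) fun n hn => by
    obtain ⟨n, rfl⟩ := Nat.exists_eq_succ_of_ne_zero hn
    have h3 : s ^ (n + 1) = u • (z * (a * s ^ n)) := by
      rw [pow_succ', Algebra.smul_def]
      conv_lhs => enter [1]; rw [h1]
      ring
    rw [Nat.succ_eq_add_one, h3, map_smul, smul_eq_mul, map_mul, map_mul]
    exact (mul_le_of_le_one_right' (hz _ (A.mul_mem ha (A.pow_mem hs n)))).trans_lt hu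
  exact absurd hs1 h2.ne

variable {P : Type*} [CommRing P] [IsDomain P] [UniqueFactorizationMonoid P] (φ : P →+* F)

omit [IsDomain P] in
theorem exists_reduced (hφ : Function.Injective φ) (hfr : ∀ z, ∃ a b, b ≠ 0 ∧ z * φ b = φ a)
    (z : F) : ∃ a b, b ≠ 0 ∧ IsRelPrime a b ∧ z * φ b = φ a := by
  obtain ⟨a, b, hb, h⟩ := hfr z
  obtain ⟨a', b', c, h1, rfl, rfl⟩ := UniqueFactorizationMonoid.exists_reduced_factors' a b hb
  refine ⟨a', b', right_ne_zero_of_mul hb, h1, ?_⟩
  have hc : φ c ≠ 0 := (map_ne_zero_iff φ hφ).2 (left_ne_zero_of_mul hb)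
  apply mul_left_cancel₀ hc
  rw [← map_mul, ← h, map_mul]
  ring

/-- The localisation of a factorial ring at a prime element, as a valuation ring. -/
def primeRing (hφ : Function.Injective φ) (hfr : ∀ z, ∃ a b, b ≠ 0 ∧ z * φ b = φ a) {U : P}
    (hU : Prime U) : ValuationSubring F where
  carrier := {z | ∃ a b, ¬U ∣ b ∧ z * φ b = φ a}
  mul_mem' := by
    rintro z w ⟨a, b, hb, h⟩ ⟨a', b', hb', h'⟩
    refine ⟨a * a', b * b', fun hd => (hU.dvd_or_dvd hd).elim hb hb', ?_⟩
    rw [map_mul, map_mul, ← h, ← h']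
    ring
  one_mem' := ⟨1, 1, hU.not_dvd_one, one_mul _⟩
  add_mem' := by
    rintro z w ⟨a, b, hb, h⟩ ⟨a', b', hb', h'⟩
    refine ⟨a * b' + a' * b, b * b', fun hd => (hU.dvd_or_dvd hd).elim hb hb', ?_⟩
    rw [map_add, map_mul, map_mul, map_mul, ← h, ← h']
    ring
  zero_mem' := ⟨0, 1, hU.not_dvd_one, by simp⟩
  neg_mem' := by
    rintro z ⟨a, b, hb, h⟩
    exact ⟨-a, b, hb, by rw [map_neg, ← h, neg_mul]⟩
  mem_or_inv_mem' := by
    intro z
    obtain ⟨a, b, hb, hab, h⟩ := exists_reduced φ hφ hfr z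
    by_cases hUb : U ∣ b
    · have hUa : ¬U ∣ a := fun hUa => hU.not_isUnit (hab hUa hUb)
      have hz : z ≠ 0 := by
        rintro rfl
        rw [zero_mul, eq_comm, map_eq_zero_iff φ hφ] at h
        exact hUa (h ▸ dvd_zero U)
      exact Or.inr ⟨b, a, hUa, by rw [← h, ← mul_assoc, inv_mul_cancel₀ hz, one_mul]⟩
    · exact Or.inl ⟨a, b, hUb, h⟩

theorem mem_nonunits_primeRing (hφ : Function.Injective φ)
    (hfr : ∀ z, ∃ a b, b ≠ 0 ∧ z * φ b = φ a) {U : P} (hU : Prime U) {z : F} {a b : P}
    (hb : ¬U ∣ b) (h : z * φ b = φ a) : z ∈ (primeRing φ hφ hfr hU).nonunits ↔ U ∣ a := by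
  have hb0 : φ b ≠ 0 := (map_ne_zero_iff φ hφ).2 fun h0 => hb (h0 ▸ dvd_zero U)
  rw [ValuationSubring.mem_nonunits_iff_or]
  constructor
  · rintro (rfl | hz)
    · rw [zero_mul, eq_comm, map_eq_zero_iff φ hφ] at h
      exact h ▸ dvd_zero U
    · by_contra ha
      have hz0 : z ≠ 0 := by
        rintro rfl
        exact hz (by rw [inv_zero]; exact zero_mem _)
      exact hz ⟨b, a, ha, by rw [← h, ← mul_assoc, inv_mul_cancel₀ hz0, one_mul]⟩
  · intro ha
    by_cases hz0 : z = 0
    · exact Or.inl hz0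
    · refine Or.inr ?_
      rintro ⟨a', b', hb', h'⟩
      have h1 : b * b' = a * a' := by
        apply hφ
        rw [map_mul, map_mul, ← h, ← h']
        field_simp
      exact (hU.dvd_or_dvd (h1 ▸ ha.mul_right a')).elim hb hb'

/-- The trace of `x` lies in the factorial ring `P` if `U x` vanishes at every valuation ring of
`K` with centre `(U)`, for all prime elements `U`. -/
theorem trace_mem_range (hφ : Function.Injective φ) (hfr : ∀ z, ∃ a b, b ≠ 0 ∧ z * φ b = φ a)
    {x : K} (h : ∀ U, Prime U → ∀ V : ValuationSubring K, (∀ p, algebraMap F K (φ p) ∈ V) →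
      (∀ p, algebraMap F K (φ p) ∈ V.nonunits ↔ U ∣ p) →
      algebraMap F K (φ U) * x ∈ V.nonunits) : ∃ p, φ p = Algebra.trace F K x := by
  obtain ⟨a, b, hb, hab, hz⟩ := exists_reduced φ hφ hfr (Algebra.trace F K x)
  by_cases hbu : IsUnit b
  · obtain ⟨c, hc⟩ := hbu.exists_right_inv
    refine ⟨a * c, ?_⟩
    rw [map_mul, ← hz, mul_assoc, ← map_mul, hc, map_one, mul_one]
  exfalso
  obtain ⟨U, hU, hUb⟩ := WfDvdMonoid.exists_irreducible_factor hbu hb
  have hU' : Prime U := UniqueFactorizationMonoid.irreducible_iff_prime.1 hU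
  have h1 := trace_mem_nonunits (primeRing φ hφ hfr hU') (y := algebraMap F K (φ U) * x)
    fun V hV => h U hU' V (fun p => by
      rw [← ValuationSubring.mem_comap, hV]
      exact ⟨p, 1, hU'.not_dvd_one, by simp⟩) fun p => by
      rw [← mem_nonunits_comap, hV]
      exact mem_nonunits_primeRing φ hφ hfr hU' hU'.not_dvd_one (by simp)
  rw [← Algebra.smul_def, map_smul, smul_eq_mul] at h1
  obtain ⟨a', b', hb', h'⟩ := ValuationSubring.nonunits_subset h1
  obtain ⟨c, rfl⟩ := (mem_nonunits_primeRing φ hφ hfr hU' hb' h').1 h1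
  have hU0 : φ U ≠ 0 := (map_ne_zero_iff φ hφ).2 hU'.ne_zero
  have h2 : a * b' = c * b := by
    apply hφ
    apply mul_left_cancel₀ hU0
    rw [map_mul, map_mul, ← hz, ← mul_assoc (φ U) (φ c), ← map_mul φ U c, ← h']
    ring
  exact (hU'.dvd_or_dvd (h2 ▸ hUb.mul_left c)).elim (fun hUa => hU.not_isUnit (hab hUa hUb)) hb'

end Codiff

end P297Z.Diff
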