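import Vale.Agent.P297Z.Surf.Defs
import Mathlib.RingTheory.RegularLocalRing.Defs
import Mathlib.RingTheory.Ideal.MinimalPrime.Noetherian

/-!
# Charts, curves and divisors of a model: first properties
-/

namespace Vale.Agent.P297Z.SB

open Vale.Agent.P297 (Place)
open Vale.Agent.P297Z.Sf

variable {K : Type} [Field K] [Algebra ℂ K] {W : Submodule ℂ K}

/-! ### Charts -/

theorem div_mem_chart {w a : K} (ha : a ∈ W) : a / w ∈ chart W w :=
  Algebra.subset_adjoin ⟨a, ha, rfl⟩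

theorem pow_div_mem_chart (w : K) {n : ℕ} {a : K} (ha : a ∈ W ^ n) : a / w ^ n ∈ chart W w := by
  refine Submodule.pow_induction_on_left' W (C := fun n a _ => a / w ^ n ∈ chart W w)
    (fun r => ?_) (fun x y i _ _ hx hy => ?_) (fun m hm i x _ hx => ?_) ha
  · simp
  · rw [add_div]
    exact add_mem hx hy
  · rw [Nat.succ_eq_add_one, pow_succ', mul_div_mul_comm]
    exact mul_mem (div_mem_chart hm) hx

theorem mul_pow_mono {w a : K} (hw : w ∈ W) {n m : ℕ} (h : n ≤ m) (ha : a * w ^ n ∈ W ^ n) :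
    a * w ^ m ∈ W ^ m := by
  obtain ⟨k, rfl⟩ := Nat.exists_eq_add_of_le h
  rw [pow_add, pow_add, ← mul_assoc]
  exact Submodule.mul_mem_mul ha (Submodule.pow_mem_pow W hw k)

theorem exists_pow_of_mem_chart {w a : K} (hw : w ∈ W) (hw0 : w ≠ 0) (ha : a ∈ chart W w) :
    ∃ n : ℕ, a * w ^ n ∈ W ^ n := by
  induction ha using Algebra.adjoin_induction with
  | mem x hx =>
    obtain ⟨b, hb, rfl⟩ := hx
    exact ⟨1, by simpa [hw0] using hb⟩
  | algebraMap r => exact ⟨0, by simp⟩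
  | add x y _ _ hx hy =>
    obtain ⟨n, hn⟩ := hx
    obtain ⟨m, hm⟩ := hy
    refine ⟨max n m, ?_⟩
    rw [add_mul]
    exact add_mem (mul_pow_mono hw (le_max_left _ _) hn) (mul_pow_mono hw (le_max_right _ _) hm)
  | mul x y _ _ hx hy =>
    obtain ⟨n, hn⟩ := hx
    obtain ⟨m, hm⟩ := hy
    refine ⟨n + m, ?_⟩
    rw [pow_add, pow_add, mul_mul_mul_comm]
    exact Submodule.mul_mem_mul hn hm

theorem chart_le {w : K} {V : ValuationSubring K} (hc : ∀ c : ℂ, algebraMap ℂ K c ∈ V)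
    (h : ∀ a ∈ W, a / w ∈ V) {a : K} (ha : a ∈ chart W w) : a ∈ V := by
  induction ha using Algebra.adjoin_induction with
  | mem x hx =>
    obtain ⟨b, hb, rfl⟩ := hx
    exact h b hb
  | algebraMap r => exact hc r
  | add x y _ _ hx hy => exact add_mem hx hy
  | mul x y _ _ hx hy => exact mul_mem hx hy

/-! ### Curves in a chart -/

/-- The valuation of a curve. -/
noncomputable abbrev cv (C : Crv W) : Valuation K (WithZero (Multiplicative ℤ)) := Pl.val C.pl

theorem In.le {C : Crv W} {w : K} (h : C.In w) {a : K} (ha : a ∈ chart W w) : cv C a ≤ 1 :=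
  (Pl.mem_ring_iff _ _).1 (chart_le C.const_mem h.2 ha)

theorem In.ord_le {C : Crv W} {w : K} (h : C.In w) {a : K} (ha : a ∈ W) (ha0 : a ≠ 0) :
    C.ord w ≤ C.ord a := by
  have h1 := Pl.ord_nonneg_of_mem C.pl (h.2 a ha)
  rw [Pl.ord_div _ ha0 h.1] at h1
  unfold Crv.ord
  omega

theorem in_of_ord_le {C : Crv W} {w w' : K} (h : C.In w) (hw' : w' ≠ 0)
    (hle : C.ord w' ≤ C.ord w) : C.In w' := by
  refine ⟨hw', fun a ha => ?_⟩
  by_cases ha0 : a = 0
  · simp [ha0, C.pl.ring.zero_mem]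
  rw [← Pl.ord_nonneg_iff _ (div_ne_zero ha0 hw'), Pl.ord_div _ ha0 hw']
  have := In.ord_le h ha ha0
  unfold Crv.ord at *
  omega

theorem val_eq_one_iff (C : Crv W) {a : K} (ha : a ≠ 0) : cv C a = 1 ↔ C.ord a = 0 := by
  rw [Pl.val_eq _ _ ha, ← WithZero.exp_zero, WithZero.exp_inj, neg_eq_zero]

theorem ne_zero_of_val {C : Crv W} {a : K} (h : cv C a = 1) : a ≠ 0 := by
  rintro rfl
  rw [map_zero] at h
  exact zero_ne_one h

theorem exists_in_loc (C : Crv W) : ∃ w ∈ W, C.In w ∧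
    ∀ z, cv C z ≤ 1 → ∃ a ∈ chart W w, ∃ s ∈ chart W w, cv C s = 1 ∧ z * s = a := by
  obtain ⟨w, hw, hw0, p, hp, -, h⟩ := C.prop
  have h1 : ∀ a : chart W w, (a : K) ∈ C.pl.ring := fun a =>
    (h a).2 ⟨a, 1, (Ideal.ne_top_iff_one p).1 hp.ne_top, by simp⟩
  refine ⟨w, hw, ⟨hw0, fun a ha => h1 ⟨_, div_mem_chart ha⟩⟩, fun z hz => ?_⟩
  obtain ⟨a, b, hb, hab⟩ := (h z).1 ((Pl.mem_ring_iff _ _).2 hz)
  have hb0 : (b : K) ≠ 0 := fun h0 => hb (by rw [Subtype.ext h0 (a1 := b) (a2 := 0)]; simp)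
  refine ⟨a, a.2, b, b.2, (val_eq_one_iff C hb0).2 (Pl.ord_unit _ (h1 b) ?_), hab⟩
  exact (h _).2 ⟨1, b, hb, by simp [hb0]⟩

theorem exists_in (C : Crv W) : ∃ w ∈ W, C.In w :=
  let ⟨w, hw, h, _⟩ := exists_in_loc C
  ⟨w, hw, h⟩

/-- The ring of a curve is a localisation of every chart which meets the curve. -/
theorem In.loc {C : Crv W} {w : K} (h : C.In w) (hw : w ∈ W) (z : K) (hz : cv C z ≤ 1) :
    ∃ a ∈ chart W w, ∃ s ∈ chart W w, cv C s = 1 ∧ z * s = a := by
  obtain ⟨u, hu, hC, hl⟩ := exists_in_loc C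
  obtain ⟨a, ha, s, hs, hs1, hzs⟩ := hl z hz
  obtain ⟨n, hn⟩ := exists_pow_of_mem_chart hu hC.1 ha
  obtain ⟨m, hm⟩ := exists_pow_of_mem_chart hu hC.1 hs
  refine ⟨_, pow_div_mem_chart w (mul_pow_mono hu (le_max_left n m) hn), _,
    pow_div_mem_chart w (mul_pow_mono hu (le_max_right n m) hm), ?_, ?_⟩
  · have h1 : cv C (u / w) = 1 := by
      rw [val_eq_one_iff C (div_ne_zero hC.1 h.1), Crv.ord, Pl.ord_div _ hC.1 h.1]
      have h2 := In.ord_le h hu hC.1
      have h3 := In.ord_le hC hw h.1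
      unfold Crv.ord at *
      omega
    rw [mul_div_assoc, ← div_pow, map_mul, map_pow, h1, hs1, one_pow, one_mul]
  · rw [← hzs]
    ring

/-- The centre of a curve on a chart. -/
def ctr {C : Crv W} {w : K} (h : C.In w) : Ideal (chart W w) where
  carrier := {a | cv C a < 1}
  zero_mem' := by simp
  add_mem' := fun ha hb => (cv C).map_add_lt ha hb
  smul_mem' := by
    intro c a ha
    change cv C ((c : K) * a) < 1
    rw [map_mul]
    exact (mul_le_of_le_one_left' (In.le h c.2)).trans_lt ha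

theorem mem_ctr {C : Crv W} {w : K} (h : C.In w) {a : chart W w} : a ∈ ctr h ↔ cv C a < 1 :=
  Iff.rfl

theorem notMem_ctr {C : Crv W} {w : K} (h : C.In w) {a : chart W w} :
    a ∉ ctr h ↔ cv C a = 1 := by
  rw [mem_ctr, not_lt]
  exact ⟨fun h1 => le_antisymm (In.le h a.2) h1, fun h1 => h1.ge⟩

theorem ctr_isPrime {C : Crv W} {w : K} (h : C.In w) : (ctr h).IsPrime := by
  refine ⟨fun h1 => ?_, fun {a b} hab => ?_⟩
  · have h2 : (1 : chart W w) ∈ ctr h := h1 ▸ Submodule.mem_top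
    simp [mem_ctr] at h2
  · by_contra hcon
    rw [not_or, notMem_ctr, notMem_ctr] at hcon
    rw [mem_ctr, MulMemClass.coe_mul, map_mul, hcon.1, hcon.2, one_mul] at hab
    exact lt_irrefl _ hab

theorem eq_of_ctr_le {C C' : Crv W} {w : K} (h : C.In w) (h' : C'.In w) (hw : w ∈ W)
    (hle : ctr h' ≤ ctr h) : C = C' := by
  refine Crv.ext (Pl.eq_of_le' fun z hz => ?_)
  obtain ⟨a, ha, s, hs, hs1, hzs⟩ := In.loc h hw z ((Pl.mem_ring_iff _ _).1 hz)
  have h1 : cv C' s = 1 := (notMem_ctr h' (a := ⟨s, hs⟩)).1 fun hm =>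
    (notMem_ctr h (a := ⟨s, hs⟩)).2 hs1 (hle hm)
  have h2 := In.le h' ha
  rw [← hzs, map_mul, h1, mul_one] at h2
  exact (Pl.mem_ring_iff _ _).2 h2

/-- Two different curves of a chart are separated by a function of the chart. -/
theorem exists_sep {C C' : Crv W} {w : K} (h : C.In w) (h' : C'.In w) (hw : w ∈ W)
    (hne : C ≠ C') : ∃ a ∈ chart W w, a ≠ 0 ∧ C.ord a = 0 ∧ 0 < C'.ord a := by
  obtain ⟨a, ha', ha⟩ := SetLike.not_le_iff_exists.1 fun hle => hne (eq_of_ctr_le h h' hw hle)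
  rw [notMem_ctr] at ha
  have ha0 := ne_zero_of_val ha
  exact ⟨a, a.2, ha0, (val_eq_one_iff C ha0).1 ha, (Pl.ord_pos_iff_val _ ha0).2 ha'⟩

theorem ctr_mem_minimalPrimes {C : Crv W} {w : K} (h : C.In w) (hw : w ∈ W) {a : chart W w}
    (ha0 : (a : K) ≠ 0) (ha : a ∈ ctr h) : ctr h ∈ (Ideal.span {a}).minimalPrimes := by
  refine ⟨⟨ctr_isPrime h, (Ideal.span_singleton_le_iff_mem _).2 ha⟩, ?_⟩
  rintro Q ⟨hQ, haQ⟩ hle b hb
  rw [Ideal.span_singleton_le_iff_mem] at haQ
  by_cases hb0 : (b : K) = 0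
  · rw [Subtype.ext hb0 (a1 := b) (a2 := 0)]
    exact Q.zero_mem
  have h1 := (Pl.ord_pos_iff_val C.pl hb0).2 hb
  have h2 := (Pl.ord_pos_iff_val C.pl ha0).2 ha
  obtain ⟨n, hn⟩ := Int.eq_ofNat_of_zero_le h2.le
  obtain ⟨c, hc, s, hs, hs1, hcs⟩ := In.loc h hw ((b : K) ^ n / a) (by
    rw [← Pl.mem_ring_iff, ← Pl.ord_nonneg_iff _ (div_ne_zero (pow_ne_zero _ hb0) ha0),
      Pl.ord_div _ (pow_ne_zero _ hb0) ha0, Pl.ord_pow, hn]
    nlinarith)
  have h3 : b ^ n * ⟨s, hs⟩ = a * ⟨c, hc⟩ := by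
    apply Subtype.ext
    push_cast
    rw [← hcs]
    field_simp
  rcases hQ.mem_or_mem (h3 ▸ Q.mul_mem_right _ haQ) with h4 | h4
  · exact hQ.mem_of_pow_mem n h4
  · exact absurd (hle h4) ((notMem_ctr h).2 hs1)

/-! ### Finiteness -/

theorem finite_pos (hW : IsModel W) {w : K} (hw : w ∈ W) {a : K} (ha : a ∈ chart W w)
    (ha0 : a ≠ 0) : {C : Crv W | C.In w ∧ 0 < C.ord a}.Finite := by
  by_cases hw0 : w = 0
  · refine Set.finite_empty.subset fun C hC => hC.1.1 hw0
  have := hW.reg w hw hw0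
  refine Set.Finite.of_finite_image (f := fun C : Crv W =>
    open Classical in if h : C.In w then ctr h else ⊤)
    ((Ideal.finite_minimalPrimes_of_isNoetherianRing _ (Ideal.span {⟨a, ha⟩})).subset ?_) ?_
  · rintro _ ⟨C, hC, rfl⟩
    simp only [dif_pos hC.1]
    exact ctr_mem_minimalPrimes hC.1 hw ha0 ((Pl.ord_pos_iff_val _ ha0).1 hC.2)
  · intro C hC C' hC' he
    simp only [dif_pos hC.1, dif_pos hC'.1] at he
    exact eq_of_ctr_le hC.1 hC'.1 hw he.ge

theorem exists_frac (hW : IsModel W) {w : K} (hw : w ∈ W) (hw0 : w ≠ 0) (f : K) :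
    ∃ a ∈ chart W w, ∃ b ∈ chart W w, b ≠ 0 ∧ f = a / b := by
  have := hW.frac w hw hw0
  obtain ⟨a, b, hb, h⟩ := IsFractionRing.div_surjective (A := chart W w) f
  exact ⟨a, a.2, b, b.2, fun h0 => nonZeroDivisors.ne_zero hb (Subtype.ext h0), h.symm⟩

theorem finite_in (hW : IsModel W) {w : K} (hw : w ∈ W) {f : K} :
    {C : Crv W | C.In w ∧ C.ord f ≠ 0}.Finite := by
  by_cases hw0 : w = 0
  · refine Set.finite_empty.subset fun C hC => hC.1.1 hw0
  by_cases hf : f = 0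
  · refine Set.finite_empty.subset fun C hC => hC.2 (by simp [hf])
  obtain ⟨a, ha, b, hb, hb0, rfl⟩ := exists_frac hW hw hw0 f
  have ha0 : a ≠ 0 := fun h => hf (by simp [h])
  refine ((finite_pos hW hw ha ha0).union (finite_pos hW hw hb hb0)).subset fun C hC => ?_
  have h1 := Pl.ord_nonneg_of_mem C.pl ((Pl.mem_ring_iff _ _).2 (In.le hC.1 ha))
  have h2 := Pl.ord_nonneg_of_mem C.pl ((Pl.mem_ring_iff _ _).2 (In.le hC.1 hb))
  have h3 := hC.2
  rw [Crv.ord, Pl.ord_div _ ha0 hb0] at h3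
  by_contra hcon
  simp only [Set.mem_union, Set.mem_ofPred_eq, hC.1, true_and, not_or, not_lt] at hcon
  unfold Crv.ord at hcon
  omega

/-- A curve meets the chart of one of the elements of a finite generating set. -/
theorem exists_in_of_span {G : Finset K} (hG : Submodule.span ℂ (G : Set K) = W) (C : Crv W) :
    ∃ w ∈ G, C.In w := by
  classical
  obtain ⟨u, hu, hC⟩ := exists_in C
  by_contra hcon
  push Not at hcon
  have h1 : ∀ a ∈ W, cv C (a / u) < 1 := by
    intro a ha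
    rw [← hG] at ha
    induction ha using Submodule.span_induction with
    | mem x hx =>
      by_cases hx0 : x = 0
      · simp [hx0]
      rw [← Pl.ord_pos_iff_val _ (div_ne_zero hx0 hC.1), Pl.ord_div _ hx0 hC.1]
      by_contra h2
      exact hcon x hx (in_of_ord_le hC hx0 (by unfold Crv.ord; omega))
    | zero => simp
    | add x y _ _ hx hy =>
      rw [add_div]
      exact (cv C).map_add_lt hx hy
    | smul c x _ hx =>
      rw [Algebra.smul_def, mul_div_assoc, map_mul]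
      exact (mul_le_of_le_one_left' ((Pl.mem_ring_iff _ _).1 (C.const_mem c))).trans_lt hx
  have h2 := h1 u hu
  rw [div_self hC.1, map_one] at h2
  exact lt_irrefl _ h2

theorem finite_ord (hW : IsModel W) (f : K) :
    (Function.support fun C : Crv W => C.ord f).Finite := by
  have := hW.fin
  obtain ⟨G, hG⟩ := (Submodule.fg_iff_finiteDimensional W).2 this
  refine (G.finite_toSet.biUnion fun w hw =>
    finite_in hW (w := w) (hG ▸ Submodule.subset_span hw) (f := f)).subset fun C hC => ?_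
  obtain ⟨w, hw, h⟩ := exists_in_of_span hG C
  exact Set.mem_biUnion hw ⟨h, hC⟩

theorem div_apply (hW : IsModel W) (f : K) (C : Crv W) : div W f C = C.ord f :=
  toDiv_apply (finite_ord hW f) C

theorem sInf_ord {C : Crv W} {w : K} (h : C.In w) (hw : w ∈ W) :
    sInf {k : ℤ | ∃ w ∈ W, w ≠ 0 ∧ C.ord w = k} = C.ord w :=
  IsLeast.csInf_eq ⟨⟨w, hw, h.1, rfl⟩, by
    rintro _ ⟨a, ha, ha0, rfl⟩
    exact In.ord_le h ha ha0⟩

theorem hyp_apply (hW : IsModel W) {C : Crv W} {w : K} (h : C.In w) (hw : w ∈ W) :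
    hyp W C = -C.ord w := by
  have := hW.fin
  obtain ⟨G, hG⟩ := (Submodule.fg_iff_finiteDimensional W).2 this
  rw [hyp, toDiv_apply, sInf_ord h hw]
  refine (G.finite_toSet.biUnion fun w _ => finite_ord hW w).subset fun C hC => ?_
  obtain ⟨w, hw, h⟩ := exists_in_of_span hG C
  refine Set.mem_biUnion hw ?_
  rw [Function.mem_support, sInf_ord h (hG ▸ Submodule.subset_span hw), neg_ne_zero] at hC
  exact hC

theorem ord_add_hyp_nonneg (hW : IsModel W) (C : Crv W) {a : K} (ha : a ∈ W) (ha0 : a ≠ 0) :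
    0 ≤ C.ord a + hyp W C := by
  obtain ⟨w, hw, h⟩ := exists_in C
  have := In.ord_le h ha ha0
  rw [hyp_apply hW h hw]
  omega

theorem in_iff (hW : IsModel W) (C : Crv W) {a : K} (ha : a ∈ W) (ha0 : a ≠ 0) :
    C.In a ↔ C.ord a + hyp W C = 0 := by
  obtain ⟨w, hw, h⟩ := exists_in C
  constructor
  · intro h1
    rw [hyp_apply hW h1 ha, add_neg_cancel]
  · intro h1
    rw [hyp_apply hW h hw] at h1
    exact in_of_ord_le h ha0 (by omega)

/-- Only finitely many curves miss a chart. -/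
theorem finite_not_in (hW : IsModel W) {a : K} (ha : a ∈ W) (ha0 : a ≠ 0) :
    {C : Crv W | ¬C.In a}.Finite := by
  refine ((finite_ord hW a).union (hyp W).hasFiniteSupport).subset fun C hC => ?_
  by_contra hcon
  simp only [Set.mem_union, Function.mem_support, not_or, not_not] at hcon
  exact hC ((in_iff hW C ha ha0).2 (by rw [hcon.1, hcon.2, add_zero]))

/-! ### The modules `M D` -/

theorem mem_M {D : Sf.Div W} {m : ℤ} {f : K} :
    f ∈ M D m ↔ f = 0 ∨ ∀ C : Crv W, 0 ≤ C.ord f + D C + m * hyp W C := by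
  simp [M, H0, mem_secOn, add_assoc]

theorem mul_mem_M {D D' : Sf.Div W} {m m' : ℤ} {f g : K} (hf : f ∈ M D m) (hg : g ∈ M D' m') :
    f * g ∈ M (D + D') (m + m') := by
  rw [mem_M] at hf hg ⊢
  by_cases h0 : f = 0
  · exact Or.inl (by simp [h0])
  by_cases h1 : g = 0
  · exact Or.inl (by simp [h1])
  refine Or.inr fun C => ?_
  have a1 := hf.resolve_left h0 C
  have a2 := hg.resolve_left h1 C
  rw [Crv.ord, Pl.ord_mul _ h0 h1, Finsupp.add_apply, add_mul]
  unfold Crv.ord at *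
  omega

theorem mem_M_one (hW : IsModel W) {a : K} (ha : a ∈ W) : a ∈ M (0 : Sf.Div W) 1 := by
  rw [mem_M]
  by_cases h0 : a = 0
  · exact Or.inl h0
  exact Or.inr fun C => by simpa using ord_add_hyp_nonneg hW C ha h0

theorem mem_M_pow (hW : IsModel W) {n : ℕ} {a : K} (ha : a ∈ W ^ n) : a ∈ M (0 : Sf.Div W) n := by
  refine Submodule.pow_induction_on_left' W (C := fun n a _ => a ∈ M (0 : Sf.Div W) n)
    (fun r => ?_) (fun x y i _ _ hx hy => add_mem hx hy) (fun m hm i x _ hx => ?_) ha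
  · exact mem_M.2 (Or.inr fun C => by simp [C.ord_const])
  · have h1 := mul_mem_M (mem_M_one hW hm) hx
    rwa [add_zero, add_comm, ← Nat.cast_succ] at h1

theorem mul_mem_M_pow (hW : IsModel W) {D : Sf.Div W} {m : ℤ} {f : K} (hf : f ∈ M D m) {n : ℕ}
    {a : K} (ha : a ∈ W ^ n) : f * a ∈ M D (m + n) := by
  simpa using mul_mem_M hf (mem_M_pow hW ha)

/-- Approximation in a chart. -/
theorem exists_approx (hW : IsModel W) {C : Crv W} {w : K} (h : C.In w) (hw : w ∈ W)
    (D : Sf.Div W) :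
    ∃ f : K, f ≠ 0 ∧ C.ord f + D C = 0 ∧ ∀ C' : Crv W, C'.In w → 0 ≤ C'.ord f + D C' := by
  classical
  have key : ∀ s : Finset (Crv W), ∀ n : Crv W → ℕ, ∃ a ∈ chart W w, a ≠ 0 ∧ C.ord a = 0 ∧
      ∀ C' ∈ s, C'.In w → C' ≠ C → (n C' : ℤ) ≤ C'.ord a := by
    intro s n
    induction s using Finset.induction_on with
    | empty => exact ⟨1, one_mem _, one_ne_zero, by simp, by simp⟩
    | insert E s hE ih =>
      obtain ⟨a, ha, ha0, h1, h2⟩ := ih
      by_cases hEw : E.In w ∧ E ≠ C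
      · obtain ⟨b, hb, hb0, h3, h4⟩ := exists_sep h hEw.1 hw hEw.2.symm
        refine ⟨a * b ^ n E, mul_mem ha (pow_mem hb _), mul_ne_zero ha0 (pow_ne_zero _ hb0),
          ?_, fun C' hC' h5 h6 => ?_⟩
        · rw [Crv.ord, Pl.ord_mul _ ha0 (pow_ne_zero _ hb0), Pl.ord_pow]
          unfold Crv.ord at h1 h3
          rw [h1, h3, mul_zero, add_zero]
        · have a1 := Pl.ord_nonneg_of_mem C'.pl ((Pl.mem_ring_iff _ _).2 (In.le h5 ha))
          have a2 := Pl.ord_nonneg_of_mem C'.pl ((Pl.mem_ring_iff _ _).2 (In.le h5 hb))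
          rw [Crv.ord, Pl.ord_mul _ ha0 (pow_ne_zero _ hb0), Pl.ord_pow]
          rcases Finset.mem_insert.1 hC' with rfl | hC'
          · unfold Crv.ord at h4
            nlinarith
          · have a3 := h2 C' hC' h5 h6
            unfold Crv.ord at a3
            nlinarith
      · refine ⟨a, ha, ha0, h1, fun C' hC' h5 h6 => ?_⟩
        rcases Finset.mem_insert.1 hC' with rfl | hC'
        · exact absurd ⟨h5, h6⟩ hEw
        · exact h2 C' hC' h5 h6
  obtain ⟨t, ht0, ht⟩ := Pl.exists_ord_eq_one C.pl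
  have hg0 : t ^ (-D C) ≠ 0 := zpow_ne_zero _ ht0
  obtain ⟨a, ha, ha0, h1, h2⟩ := key ((finite_ord hW (t ^ (-D C))).toFinset ∪ D.support)
    fun C' => (-(C'.ord (t ^ (-D C)) + D C')).toNat
  have hC : C.ord (t ^ (-D C) * a) + D C = 0 := by
    unfold Crv.ord at h1
    rw [Crv.ord, Pl.ord_mul _ hg0 ha0, Pl.ord_zpow, ht, h1]
    ring
  refine ⟨t ^ (-D C) * a, mul_ne_zero hg0 ha0, hC, fun C' h5 => ?_⟩
  by_cases h6 : C' = C
  · rw [h6, hC]
  have a1 := Pl.ord_nonneg_of_mem C'.pl ((Pl.mem_ring_iff _ _).2 (In.le h5 ha))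
  rw [Crv.ord, Pl.ord_mul _ hg0 ha0]
  by_cases h7 : C' ∈ (finite_ord hW (t ^ (-D C))).toFinset ∪ D.support
  · have a2 := h2 C' h7 h5 h6
    unfold Crv.ord at a2
    omega
  · simp only [Finset.mem_union, Set.Finite.mem_toFinset, Function.mem_support,
      Finsupp.mem_support_iff, not_or, not_not] at h7
    have a2 := h7.1
    unfold Crv.ord at a2
    rw [a2, h7.2]
    omega

/-- A section on the chart `w ≠ 0` extends after multiplication by a power of `w`. -/
theorem exists_mul_pow_mem_M (hW : IsModel W) {w : K} (hw : w ∈ W) (hw0 : w ≠ 0) {D : Sf.Div W}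
    {f : K} (hf : f ∈ secIn w D) : ∃ n : ℕ, f * w ^ n ∈ M D n := by
  by_cases hf0 : f = 0
  · exact ⟨0, by simp [hf0]⟩
  have hf' := hf.resolve_left hf0
  obtain ⟨N, hN⟩ := ((finite_not_in hW hw hw0).image
    fun C => (-(C.ord f + D C)).toNat).bddAbove
  refine ⟨N, mem_M.2 (Or.inr fun C => ?_)⟩
  rw [Crv.ord, Pl.ord_mul _ hf0 (pow_ne_zero _ hw0), Pl.ord_pow]
  have h1 := ord_add_hyp_nonneg hW C hw hw0
  by_cases hC : C.In w
  · have h2 := hf' C hC
    unfold Crv.ord at *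
    nlinarith
  · have h2 : (-(C.ord f + D C)).toNat ≤ N := hN ⟨C, hC, rfl⟩
    have h3 : C.ord w + hyp W C ≠ 0 := fun h => hC ((in_iff hW C hw hw0).2 h)
    have h4 : -(C.ord f + D C) ≤ N := by omega
    have h5 : 1 ≤ C.ord w + hyp W C := by omega
    unfold Crv.ord at *
    nlinarith

/-- The module `M D` generates `O(D)` along every curve. -/
theorem exists_gen (hW : IsModel W) (C : Crv W) (D : Sf.Div W) :
    ∃ (n : ℕ) (f : K), f ∈ M D n ∧ f ≠ 0 ∧ C.ord f + D C + n * hyp W C = 0 := by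
  obtain ⟨w, hw, h⟩ := exists_in C
  obtain ⟨f, hf0, h1, h2⟩ := exists_approx hW h hw D
  obtain ⟨n, hn⟩ := exists_mul_pow_mem_M hW hw h.1 (D := D) (f := f) (Or.inr h2)
  refine ⟨n, _, hn, mul_ne_zero hf0 (pow_ne_zero _ h.1), ?_⟩
  rw [Crv.ord, Pl.ord_mul _ hf0 (pow_ne_zero _ h.1), Pl.ord_pow, hyp_apply hW h hw]
  unfold Crv.ord at *
  linarith

/-! ### Curves from valuation rings -/

/-- A valuation ring whose centre on a chart has height one and is not maximal is a curve. -/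
theorem exists_crv (hW : IsModel W) {w : K} (hw : w ∈ W) (hw0 : w ≠ 0) (V : ValuationSubring K)
    (hV : ∀ a ∈ chart W w, a ∈ V) (P : Ideal (chart W w))
    (hP : ∀ a, a ∈ P ↔ (a : K) ∈ V.nonunits) (hP1 : P.height = 1) (hPm : ¬P.IsMaximal) :
    ∃ C : Crv W, C.pl.ring = V ∧ C.In w := by
  have := hW.reg w hw hw0
  have hval : ∀ a : chart W w, a ∉ P ↔ V.valuation a = 1 := by
    intro a
    rw [hP, ValuationSubring.mem_nonunits_iff, not_lt]
    exact ⟨fun h => le_antisymm ((V.valuation_le_one_iff _).2 (hV a a.2)) h, fun h => h.ge⟩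
  have hp : P.IsPrime := by
    refine ⟨fun h => ?_, fun {a b} hab => ?_⟩
    · exact (hval 1).2 (by simp) (h ▸ Submodule.mem_top)
    · by_contra hcon
      rw [not_or, hval, hval] at hcon
      exact (hval (a * b)).2 (by simp [hcon.1, hcon.2]) hab
  let L := Localization.AtPrime P
  have hL : IsDiscreteValuationRing L := by
    rw [← IsLocalRing.finrank_CotangentSpace_eq_one_iff]
    have h1 := (IsRegularLocalRing.iff_finrank_cotangentSpace L).1
      (IsRegularRing.isRegularLocalRing_localization P)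
    rw [IsLocalization.AtPrime.ringKrullDim_eq_height P L, hP1] at h1
    exact_mod_cast h1
  have hdvd : ∀ a b : chart W w, algebraMap _ L b ∣ algebraMap _ L a →
      ∃ c s : chart W w, s ∉ P ∧ a * s = b * c := by
    rintro a b ⟨q, hq⟩
    obtain ⟨⟨c, s⟩, hc⟩ := IsLocalization.surj P.primeCompl q
    refine ⟨c, s, s.2, IsLocalization.injective L P.primeCompl_le_nonZeroDivisors ?_⟩
    rw [map_mul, map_mul, hq, mul_assoc, hc]
  have hloc : ∀ z, z ∈ V ↔ z ∈ loc (chart W w) P hp := by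
    intro z
    constructor
    · intro hz
      obtain ⟨a, ha, b, hb, hb0, rfl⟩ := exists_frac hW hw hw0 z
      rcases ValuationRing.dvd_total (algebraMap (chart W w) L ⟨b, hb⟩)
        (algebraMap (chart W w) L ⟨a, ha⟩) with h | h
      · obtain ⟨c, s, hs, hc⟩ := hdvd _ _ h
        have h1 : a * s = b * c := congrArg Subtype.val hc
        exact ⟨c, s, hs, by field_simp; exact h1⟩
      · obtain ⟨c, s, hs, hc⟩ := hdvd _ _ h
        have h1 : b * s = a * c := congrArg Subtype.val hc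
        have h2 : a / b * c = s := by field_simp; exact h1.symm
        refine ⟨s, c, (hval c).2 (le_antisymm ((V.valuation_le_one_iff _).2 (hV c c.2)) ?_), h2⟩
        rw [← (hval s).1 hs, ← h2, map_mul]
        exact mul_le_of_le_one_left' ((V.valuation_le_one_iff _).2 hz)
    · rintro ⟨a, b, hb, h⟩
      rw [← V.valuation_le_one_iff]
      have h1 := (V.valuation_le_one_iff _).2 (hV a a.2)
      rwa [← h, map_mul, (hval b).1 hb, mul_one] at h1
  let φ : chart W w →+* V := (chart W w).val.toRingHom.codRestrict V.toSubring fun a => hV a a.2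
  let := φ.toAlgebra
  have hloc' : IsLocalization.AtPrime V P := by
    refine (isLocalization_iff _ _).2 ⟨fun s => ?_, fun z => ?_, fun {a b} hab => ⟨1, ?_⟩⟩
    · exact (V.valuation_eq_one_iff _).2 ((hval s).1 s.2)
    · obtain ⟨a, b, hb, h⟩ := (hloc z).1 z.2
      exact ⟨⟨a, b, hb⟩, Subtype.ext h⟩
    · have h1 : (a : K) = b := congrArg (fun z : V => (z : K)) hab
      rw [Subtype.ext h1]
  have hdvr : IsDiscreteValuationRing V :=
    IsDiscreteValuationRing.RingEquivClass.isDiscreteValuationRing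
      (IsLocalization.algEquiv P.primeCompl L V)
  exact ⟨⟨⟨V, hdvr⟩, w, hw, hw0, P, hp, hPm, hloc⟩, rfl, hw0,
    fun a ha => hV _ (div_mem_chart ha)⟩

end Vale.Agent.P297Z.SB
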