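import Vale.Agent.P297Z.Diff.Coord
import Vale.Agent.P297Z.Diff.Crv
import Vale.Agent.P297Z.Surf.Sk

/-!
# The canonical divisor of a surface
-/

namespace Vale.Agent.P297Z.SB

open Vale.Agent.P297 (Place)
open Vale.Agent.P297Z.Sf _root_.P297Z.Diff MvPolynomial

variable {K : Type} [Field K] [Algebra ℂ K]

theorem wedge_eq_jac (y : Fin 2 → K) (δ₁ δ₂ : Derivation ℂ K K) :
    wedge (y 0) (y 1) δ₁ δ₂ = jac ![δ₁, δ₂] y := by
  simp [wedge, jac, Matrix.det_fin_two]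

theorem regDer_iff (P : Place K) (δ : Derivation ℂ K K) : RegDer P δ ↔ Pres (Pl.val P) δ := by
  simp only [RegDer, Pres, Pl.mem_ring_iff]

theorem isLeast_shift {u v u' v' c : K} (hc : c ≠ 0)
    (h : ∀ δ₁ δ₂, wedge u' v' δ₁ δ₂ = c * wedge u v δ₁ δ₂) {P : Place K} {k : ℤ}
    (hk : IsLeast (canSet u v P) k) : IsLeast (canSet u' v' P) (k + P.ord c) := by
  constructor
  · obtain ⟨δ₁, δ₂, h1, h2, h3, h4⟩ := hk.1
    refine ⟨δ₁, δ₂, h1, h2, by rw [h]; exact mul_ne_zero hc h3, ?_⟩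
    rw [h, Pl.ord_mul _ hc h3, h4, add_comm]
  · rintro _ ⟨δ₁, δ₂, h1, h2, h3, rfl⟩
    rw [h] at h3
    have h4 := hk.2 ⟨δ₁, δ₂, h1, h2, right_ne_zero_of_mul h3, rfl⟩
    rw [h, Pl.ord_mul _ hc (right_ne_zero_of_mul h3)]
    omega

theorem unif {W : Submodule ℂ K} (C : Crv W) {t : K} (ht0 : t ≠ 0) (ht : C.ord t = 1) :
    Unif (cv C) t where
  ne := ht0
  lt := (Pl.ord_pos_iff_val _ ht0).1 (by unfold Crv.ord at ht; omega)
  disc z hz := by
    refine ⟨C.ord z, ?_⟩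
    unfold Crv.ord at *
    rw [← map_zpow₀, Pl.val_eq _ _ hz, Pl.val_eq _ _ (zpow_ne_zero _ ht0), Pl.ord_zpow, ht,
      mul_one]
  char n hn := by
    have h1 : (n : K) = algebraMap ℂ K n := (map_natCast _ n).symm
    rw [h1, val_eq_one_iff C ((_root_.map_ne_zero _).2 (Nat.cast_ne_zero.2 hn)), C.ord_const]

theorem trb (htd : Algebra.trdeg ℂ K = 2) {y : Fin 2 → K} (hy : AlgebraicIndependent ℂ y) :
    IsTranscendenceBasis ℂ y :=
  hy.isTranscendenceBasis_of_trdeg_le_of_finite (by simp [htd])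

theorem exists_change (htd : Algebra.trdeg ℂ K = 2) {y y' : Fin 2 → K}
    (hy : AlgebraicIndependent ℂ y) (hy' : AlgebraicIndependent ℂ y') :
    ∃ c : K, c ≠ 0 ∧ ∀ δ₁ δ₂, wedge (y' 0) (y' 1) δ₁ δ₂ = c * wedge (y 0) (y 1) δ₁ δ₂ := by
  obtain ⟨d, hd⟩ := exists_coord (trb htd hy)
  obtain ⟨d', hd'⟩ := exists_coord (trb htd hy')
  refine ⟨jac d y', fun h0 => ?_, fun δ₁ δ₂ => ?_⟩
  · have h1 := hd.jac_mul d' y'
    rw [hd'.jac_self, h0, mul_zero] at h1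
    exact one_ne_zero h1
  · rw [wedge_eq_jac, wedge_eq_jac, hd.jac_mul, mul_comm]

variable (S : Surf K)

/-- The coordinates of the chart `x i ≠ 0` of the plane. -/
def yc (i : Fin 3) (j : Fin 2) : K := S.x (i.succAbove j) / S.x i

/-- The coordinate ring of the chart `x i ≠ 0` of the plane. -/
def Rp (i : Fin 3) : Subalgebra ℂ K := Algebra.adjoin ℂ (Set.range fun j => S.x j / S.x i)

theorem Rp_eq (i : Fin 3) : Rp S i = Algebra.adjoin ℂ (Set.range (yc S i)) := by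
  refine le_antisymm (Algebra.adjoin_le ?_) (Algebra.adjoin_mono ?_)
  · rintro _ ⟨j, rfl⟩
    rcases Fin.eq_self_or_eq_succAbove i j with rfl | ⟨l, rfl⟩
    · simp only [div_self (S.x_ne j)]
      exact one_mem _
    · exact Algebra.subset_adjoin ⟨l, rfl⟩
  · rintro _ ⟨j, rfl⟩
    exact ⟨_, rfl⟩

theorem mem_Rp {i : Fin 3} {r : K} :
    r ∈ Rp S i ↔ ∃ p : MvPolynomial (Fin 2) ℂ, aeval (yc S i) p = r := by
  rw [Rp_eq, Algebra.adjoin_range_eq_range_aeval]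
  rfl

theorem Rp_le (i : Fin 3) : Rp S i ≤ chart S.W (S.x i) :=
  Algebra.adjoin_le (by rintro _ ⟨j, rfl⟩; exact div_mem_chart (S.x_mem j))

theorem yc_mem (i : Fin 3) (j : Fin 2) : yc S i j ∈ Rp S i := Algebra.subset_adjoin ⟨_, rfl⟩

variable {S}

theorem yc_trb (hL : S.Loc) (i : Fin 3) : IsTranscendenceBasis ℂ (yc S i) := by
  have h1 : Algebra.IsAlgebraic (Rp S i) K := ⟨fun z => by
    obtain ⟨a, ha, b, hb, -, rfl⟩ := exists_frac S.model (S.x_mem i) (S.x_ne i) z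
    rw [div_eq_mul_inv]
    exact (hL.int i a ha).isAlgebraic.mul (hL.int i b hb).isAlgebraic.inv⟩
  rw [Rp_eq] at h1
  exact Algebra.IsAlgebraic.isTranscendenceBasis_of_le_trdeg_of_finite ℂ _
    (by simp [S.model.td])

theorem exists_gens (hL : S.Loc) (i : Fin 3) : ∃ G : Finset K,
    (G : Set K) ⊆ (chart S.W (S.x i)).toSubring ∧ (chart S.W (S.x i)).toSubring ≤
      Subring.closure (((Rp S i).toSubring : Set K) ∪ G) := by
  obtain ⟨G, hG⟩ := (Subalgebra.fg_iff_finiteType _).2 (hL.ft (S.x i))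
  refine ⟨G, fun g hg => hG ▸ Algebra.subset_adjoin hg, ?_⟩
  rw [← hG, Algebra.adjoin_eq_ring_closure]
  refine Subring.closure_mono (Set.union_subset_union_left _ ?_)
  rintro _ ⟨c, rfl⟩
  exact Subalgebra.algebraMap_mem _ c

theorem cen (hL : S.Loc) {i : Fin 3} {C : Crv S.W} (h : C.In (S.x i)) :
    Cen (cv C) (Rp S i).toSubring (chart S.W (S.x i)).toSubring where
  le _ ha := In.le h ha
  sub := Rp_le S i
  int := hL.int i
  fg := exists_gens hL i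
  loc := In.loc h (S.x_mem i)

theorem der_mem_Rp {i : Fin 3} {d : Fin 2 → Derivation ℂ K K} (hd : Coord (yc S i) d)
    (j : Fin 2) : ∀ r ∈ (Rp S i).toSubring, d j r ∈ (Rp S i).toSubring := by
  intro r hr
  obtain ⟨p, rfl⟩ := (mem_Rp S).1 hr
  rw [hd.der_aeval]
  exact (mem_Rp S).2 ⟨_, rfl⟩

/-- The order of the form `dy₀ ∧ dy₁` along a curve of the chart. -/
theorem isLeast_yc (hL : S.Loc) {i : Fin 3} {C : Crv S.W} (h : C.In (S.x i))
    {U : MvPolynomial (Fin 2) ℂ} (hU0 : U ≠ 0) (hU : cv C (aeval (yc S i) U) < 1) {j : Fin 2}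
    (hj : cv C (aeval (yc S i) (pderiv j U)) = 1) :
    IsLeast (canSet (yc S i 0) (yc S i 1) C.pl) (C.ord (aeval (yc S i) U) - 1) := by
  obtain ⟨d, hd⟩ := exists_coord (yc_trb hL i)
  obtain ⟨t, ht0, ht⟩ := Pl.exists_ord_eq_one C.pl
  have hu0 : aeval (yc S i) U ≠ 0 := (map_ne_zero_iff _ (yc_trb hL i).1).2 hU0
  have huR : aeval (yc S i) U ∈ (Rp S i).toSubring := (mem_Rp S).2 ⟨_, rfl⟩
  rw [← hd.der_aeval] at hj
  have hut : C.pl.ord (aeval (yc S i) U / t) = C.ord (aeval (yc S i) U) - 1 := by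
    rw [Pl.ord_div _ hu0 ht0, ht]
  constructor
  · obtain ⟨w, hw, hw'⟩ := exists_val_form (unif C ht0 ht) (cen hL h) (der_mem_Rp hd) huR hu0 hU
      hj hd
    have h1 : wedge (yc S i 0) (yc S i 1) (w 0) (w 1) = aeval (yc S i) U / t := by
      rw [wedge_eq_jac, ← hw']
      congr 1
      ext1 l
      fin_cases l <;> rfl
    exact ⟨w 0, w 1, (regDer_iff _ _).2 (hw 0), (regDer_iff _ _).2 (hw 1),
      by rw [h1]; exact div_ne_zero hu0 ht0, by rw [h1, hut]⟩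
  · rintro _ ⟨δ₁, δ₂, h1, h2, h3, rfl⟩
    have h4 := val_form_le (unif C ht0 ht) (cen hL h) (der_mem_Rp hd) huR hu0 hU hj hd
      (yc_mem S i) (w := ![δ₁, δ₂]) (fun l => by
        fin_cases l
        · exact (regDer_iff _ _).1 h1
        · exact (regDer_iff _ _).1 h2)
    rw [← wedge_eq_jac, Pl.val_eq _ _ h3, Pl.val_eq _ _ (div_ne_zero hu0 ht0),
      WithZero.exp_le_exp, hut] at h4
    omega

theorem mem_of_integral {R : Subalgebra ℂ K} {V : ValuationSubring K} (hR : ∀ r ∈ R, r ∈ V)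
    {a : K} (ha : IsIntegral R a) : a ∈ V := by
  have h1 : IsIntegral V a := ha.map_of_comp_eq
    (R.val.toRingHom.codRestrict V.toSubring fun r => hR r r.2) (RingHom.id K) rfl
  obtain ⟨b, rfl⟩ := IsIntegrallyClosed.isIntegral_iff.1 h1
  exact b.2

/-- A curve of the chart has a nonzero centre on the chart of the plane. -/
theorem exists_eqn (hL : S.Loc) {i : Fin 3} {C : Crv S.W} (h : C.In (S.x i)) :
    ∃ U : MvPolynomial (Fin 2) ℂ, U ≠ 0 ∧ cv C (aeval (yc S i) U) < 1 ∧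
      ∃ j, cv C (aeval (yc S i) (pderiv j U)) = 1 := by
  have hm : ∀ p : MvPolynomial (Fin 2) ℂ, aeval (yc S i) p ∈ chart S.W (S.x i) := fun p =>
    Rp_le S i ((mem_Rp S).2 ⟨p, rfl⟩)
  let φ : MvPolynomial (Fin 2) ℂ →+* chart S.W (S.x i) :=
    (aeval (yc S i)).toRingHom.codRestrict (chart S.W (S.x i)).toSubring hm
  have := ctr_isPrime h
  have h0 : (ctr h).comap φ ≠ ⊥ := by
    obtain ⟨p, hp, hp0, -, -, hp'⟩ := hL.crv_chart C _ (S.x_mem i) h
    obtain ⟨a, ha, ha0⟩ := Submodule.exists_mem_ne_zero_of_ne_bot hp0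
    have ha0' : (a : K) ≠ 0 := fun h0 => ha0 (Subtype.ext h0)
    have h1 := ((hp' a).1 ha).resolve_left ha0'
    intro hb
    have h2 : ∀ r ∈ Rp S i, r ≠ 0 → cv C r = 1 := by
      intro r hr hr0
      obtain ⟨q, rfl⟩ := (mem_Rp S).1 hr
      refine (notMem_ctr h (a := φ q)).1 fun hq => hr0 ?_
      have h3 : q ∈ (ctr h).comap φ := hq
      rw [hb, Ideal.mem_bot] at h3
      rw [h3, map_zero]
    obtain ⟨q, hq0, hq⟩ := (hL.int i a a.2).isAlgebraic.inv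
    obtain ⟨b, hb0, hb⟩ := (IsAlgebraic.exists_integral_multiple ⟨q, hq0, hq⟩ :)
    have h3 := (Pl.mem_ring_iff _ _).1 (mem_of_integral (V := C.pl.ring)
      (fun r hr => (Pl.mem_ring_iff _ _).2 (In.le h (Rp_le S i hr))) hb)
    rw [Algebra.smul_def, map_mul] at h3
    have h4 : Pl.val C.pl (algebraMap _ K b) = 1 := h2 b b.2 fun h0 => hb0 (Subtype.ext h0)
    rw [h4, one_mul, ← Pl.mem_ring_iff, ← Pl.ord_nonneg_iff _ (inv_ne_zero ha0'),
      Pl.ord_inv] at h3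
    unfold Crv.ord at h1
    omega
  obtain ⟨U, hU, hU0, j, hj⟩ := exists_mem_pderiv_notMem h0 (Ideal.comap_ne_top φ this.ne_top)
  exact ⟨U, hU0, hU, j, (notMem_ctr h (a := φ _)).1 hj⟩

theorem pres_of_gens {Γ : Type*} [LinearOrderedCommGroupWithZero Γ] {v : Valuation K Γ}
    {R A : Subring K} (hc : Cen v R A) {G : Set K} (hGA : G ⊆ A)
    (hG : A ≤ Subring.closure ((R : Set K) ∪ G)) {δ : Derivation ℂ K K}
    (hR : ∀ r ∈ R, v (δ r) ≤ 1) (hδ : ∀ g ∈ G, v (δ g) ≤ 1) : Pres v δ := by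
  refine fun z hz => hc.der_frac (fun a ha => ?_) hz
  have key : v a ≤ 1 ∧ v (δ a) ≤ 1 := by
    refine Subring.closure_induction (p := fun a _ => v a ≤ 1 ∧ v (δ a) ≤ 1)
      ?_ ?_ ?_ ?_ ?_ ?_ (hG ha)
    · rintro x (hx | hx)
      · exact ⟨hc.le x (hc.sub hx), hR x hx⟩
      · exact ⟨hc.le x (hGA hx), hδ x hx⟩
    · simp
    · simp
    · intro x y _ _ hx hy
      exact ⟨v.map_add_le hx.1 hy.1, by rw [map_add]; exact v.map_add_le hx.2 hy.2⟩
    · intro x _ hx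
      exact ⟨by simpa using hx.1, by rw [map_neg, Valuation.map_neg]; exact hx.2⟩
    · intro x y _ _ hx hy
      refine ⟨by rw [map_mul]; exact mul_le_one' hx.1 hy.1, ?_⟩
      rw [Derivation.leibniz, smul_eq_mul, smul_eq_mul]
      refine v.map_add_le ?_ ?_
      · rw [map_mul]
        exact mul_le_one' hx.1 hy.2
      · rw [map_mul]
        exact mul_le_one' hy.1 hx.2
  exact key.2

/-- The form `dy₀ ∧ dy₁` has order zero along almost all curves. -/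
theorem finite_can (hL : S.Loc) (i : Fin 3) :
    {C : Crv S.W | ¬IsLeast (canSet (yc S i 0) (yc S i 1) C.pl) 0}.Finite := by
  obtain ⟨d, hd⟩ := exists_coord (yc_trb hL i)
  obtain ⟨G, hGA, hG⟩ := exists_gens hL i
  refine ((finite_not_in S.model (S.x_mem i) (S.x_ne i)).union (G.finite_toSet.biUnion
    fun g _ => Set.finite_iUnion fun j => finite_ord S.model (d j g))).subset fun C hC => ?_
  by_contra hcon
  simp only [Set.mem_union, Set.mem_ofPred_eq, Set.mem_iUnion, Function.mem_support, not_or,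
    not_not, not_exists] at hcon
  have h1 : ∀ j, Pres (cv C) (d j) := fun j =>
    pres_of_gens (cen hL hcon.1) hGA hG
      (fun r hr => In.le hcon.1 (Rp_le S i (der_mem_Rp hd j r hr))) fun g hg => by
      by_cases h0 : d j g = 0
      · simp [h0]
      · exact ((val_eq_one_iff C h0).2 (hcon.2 g hg j)).le
  have h2 : wedge (yc S i 0) (yc S i 1) (d 0) (d 1) = 1 := by
    simp [wedge, hd.dual]
  refine hC ⟨⟨d 0, d 1, (regDer_iff _ _).2 (h1 0), (regDer_iff _ _).2 (h1 1),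
    by rw [h2]; exact one_ne_zero, by rw [h2, Pl.ord_one]⟩, ?_⟩
  rintro _ ⟨δ₁, δ₂, h3, h4, -, rfl⟩
  have h5 : ∀ j, yc S i j ∈ C.pl.ring := fun j =>
    (Pl.mem_ring_iff _ _).2 (In.le hcon.1 (Rp_le S i (yc_mem S i j)))
  exact Pl.ord_nonneg_of_mem _ (sub_mem (mul_mem (h3 _ (h5 0)) (h4 _ (h5 1)))
    (mul_mem (h3 _ (h5 1)) (h4 _ (h5 0))))

theorem isLeast_canDiv (hL : S.Loc) {u v : K} (huv : AlgebraicIndependent ℂ ![u, v])
    (C : Crv S.W) : IsLeast (canSet u v C.pl) (canDiv S.W u v C) := by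
  have hfin : (Function.support fun C : Crv S.W => sInf (canSet u v C.pl)).Finite := by
    obtain ⟨c, hc, h⟩ := exists_change S.model.td (yc_trb hL 0).1 huv
    refine ((finite_can hL 0).union (finite_ord S.model c)).subset fun C hC => ?_
    by_contra hcon
    simp only [Set.mem_union, Set.mem_ofPred_eq, Function.mem_support, not_or, not_not] at hcon
    have h1 := (isLeast_shift hc h hcon.1).csInf_eq
    rw [zero_add] at h1
    exact hC (h1.trans hcon.2)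
  obtain ⟨i, hi⟩ := hL.crv_cover C
  obtain ⟨U, hU0, hU, j, hj⟩ := exists_eqn hL hi
  obtain ⟨c, hc, h⟩ := exists_change S.model.td (yc_trb hL i).1 huv
  have h1 := isLeast_shift hc h (isLeast_yc hL hi hU0 hU hj)
  have h2 : canDiv S.W u v C = _ := (toDiv_apply hfin C).trans h1.csInf_eq
  rw [h2]
  exact h1

theorem can : CAN := fun _ _ _ S hL =>
  ⟨fun _ _ h C => isLeast_canDiv hL h C, fun _ _ _ _ h h' => exists_change S.model.td h h'⟩

theorem wedge_inv (a b : K) (ha : a ≠ 0) (δ₁ δ₂ : Derivation ℂ K K) :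
    wedge a⁻¹ (b * a⁻¹) δ₁ δ₂ = -a⁻¹ ^ 3 * wedge a b δ₁ δ₂ := by
  simp only [wedge, Derivation.leibniz, Derivation.leibniz_inv, smul_eq_mul]
  field_simp
  ring

theorem wedge_yc (S : Surf K) (i : Fin 3) : ∃ c : K, (c = (S.x i / S.x 0) ^ 3 ∨
    c = -(S.x i / S.x 0) ^ 3) ∧ ∀ δ₁ δ₂, wedge (S.x 1 / S.x 0) (S.x 2 / S.x 0) δ₁ δ₂ =
      c * wedge (yc S i 0) (yc S i 1) δ₁ δ₂ := by
  have h0 := S.x_ne 0
  have h1 := S.x_ne 1
  have h2 := S.x_ne 2
  fin_cases i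
  · refine ⟨_, Or.inl rfl, fun δ₁ δ₂ => ?_⟩
    simp [h0, yc]
  · refine ⟨_, Or.inr rfl, fun δ₁ δ₂ => ?_⟩
    have h := wedge_inv (S.x 0 / S.x 1) (S.x 2 / S.x 1) (div_ne_zero h0 h1) δ₁ δ₂
    rw [inv_div, div_mul_div_cancel₀ h1] at h
    exact h
  · refine ⟨_, Or.inl rfl, fun δ₁ δ₂ => ?_⟩
    have h := wedge_inv (S.x 0 / S.x 2) (S.x 1 / S.x 2) (div_ne_zero h0 h2) δ₂ δ₁
    rw [inv_div, div_mul_div_cancel₀ h2] at h
    change wedge _ _ _ _ = (S.x 2 / S.x 0) ^ 3 * wedge (S.x 0 / S.x 2) (S.x 1 / S.x 2) δ₁ δ₂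
    unfold wedge at h ⊢
    linear_combination h

/-- The coefficient of the canonical divisor. -/
theorem kap_apply (hL : S.Loc) {i : Fin 3} {C : Crv S.W} (h : C.In (S.x i))
    {U : MvPolynomial (Fin 2) ℂ} (hU0 : U ≠ 0) (hU : cv C (aeval (yc S i) U) < 1) {j : Fin 2}
    (hj : cv C (aeval (yc S i) (pderiv j U)) = 1) :
    S.kap C = C.ord (aeval (yc S i) U) - 1 + 3 * (C.ord (S.x i) - C.ord (S.x 0)) := by
  obtain ⟨c, hc, h1⟩ := wedge_yc S i
  have h2 : S.x i / S.x 0 ≠ 0 := div_ne_zero (S.x_ne i) (S.x_ne 0)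
  have hc0 : c ≠ 0 := by
    rcases hc with rfl | rfl
    · exact pow_ne_zero _ h2
    · exact neg_ne_zero.2 (pow_ne_zero _ h2)
  have h3 : C.pl.ord c = 3 * (C.ord (S.x i) - C.ord (S.x 0)) := by
    rcases hc with rfl | rfl
    · rw [Pl.ord_pow, Pl.ord_div _ (S.x_ne i) (S.x_ne 0)]
      rfl
    · rw [Pl.ord_neg, Pl.ord_pow, Pl.ord_div _ (S.x_ne i) (S.x_ne 0)]
      rfl
  rw [← h3]
  exact (isLeast_canDiv hL S.indep C).unique
    (isLeast_shift hc0 h1 (isLeast_yc hL h hU0 hU hj))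

end Vale.Agent.P297Z.SB
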