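import Mathlib.RingTheory.Derivation.Basic
import Mathlib.RingTheory.Valuation.Basic
import Mathlib.RingTheory.IntegralClosure.IsIntegral.Defs
import Mathlib.Algebra.Polynomial.Derivative
import Mathlib.Algebra.Polynomial.Eval.Degree
import Mathlib.Algebra.Ring.Subring.Basic
import Mathlib.Tactic.FieldSimp

/-!
# Derivations which preserve a discrete valuation ring

`v` is a discrete valuation of `K` with uniformiser `t` and residue characteristic zero.
-/

open Finset Polynomial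

namespace P297Z.Diff

variable {k K : Type*} [CommRing k] [Field K] [Algebra k K]
  {Γ : Type*} [LinearOrderedCommGroupWithZero Γ]

/-- `t` is a uniformiser of the discrete valuation `v` of residue characteristic zero. -/
structure Unif (v : Valuation K Γ) (t : K) : Prop where
  ne : t ≠ 0
  lt : v t < 1
  disc : ∀ z : K, z ≠ 0 → ∃ n : ℤ, v z = v t ^ n
  char : ∀ n : ℕ, n ≠ 0 → v (n : K) = 1

variable {v : Valuation K Γ} {t : K}

theorem Unif.pos (h : Unif v t) : 0 < v t := zero_lt_iff.2 ((_root_.map_ne_zero v).2 h.ne)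

theorem Unif.le_of_lt (h : Unif v t) {z : K} (hz : v z < 1) : v z ≤ v t := by
  rcases eq_or_ne z 0 with rfl | hz0
  · simp
  obtain ⟨n, hn⟩ := h.disc z hz0
  rw [hn] at hz ⊢
  have h1 : 0 < n := (zpow_lt_one_iff_right_of_lt_one₀ h.pos h.lt).1 hz
  calc v t ^ n ≤ v t ^ (1 : ℤ) := zpow_le_zpow_right_of_le_one₀ h.pos h.lt.le h1
    _ = v t := zpow_one _

theorem Unif.exists_nat (h : Unif v t) {z : K} (hz0 : z ≠ 0) (hz : v z < 1) :
    ∃ e : ℕ, v z = v t ^ (e + 1) := by
  obtain ⟨n, hn⟩ := h.disc z hz0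
  rw [hn] at hz
  have h1 : 0 < n := (zpow_lt_one_iff_right_of_lt_one₀ h.pos h.lt).1 hz
  obtain ⟨e, rfl⟩ : ∃ e : ℕ, n = (e + 1 : ℕ) := ⟨(n - 1).toNat, by omega⟩
  exact ⟨e, by rw [hn, zpow_natCast]⟩

theorem Unif.exists_pow_mul_le (h : Unif v t) (z : K) : ∃ N : ℕ, v (t ^ N * z) ≤ 1 := by
  rcases eq_or_ne z 0 with rfl | hz0
  · exact ⟨0, by simp⟩
  obtain ⟨n, hn⟩ := h.disc z hz0
  refine ⟨(-n).toNat, ?_⟩
  rw [map_mul, map_pow, hn, ← zpow_natCast, ← zpow_add₀ h.pos.ne']
  exact (zpow_le_one_iff_right_of_lt_one₀ h.pos h.lt).2 (by omega)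

/-- The derivation `δ` preserves the valuation ring of `v`. -/
def Pres (v : Valuation K Γ) (δ : Derivation k K K) : Prop := ∀ a, v a ≤ 1 → v (δ a) ≤ 1

/-- The value of `δ u` in terms of the value of `δ t`. -/
theorem Unif.der_eq (h : Unif v t) (δ : Derivation k K K) {u : K} {e : ℕ}
    (hu : v u = v t ^ (e + 1)) :
    ∃ w : K, v w = 1 ∧ δ u = t ^ e * (t * δ w + w * ((e + 1 : ℕ) : K) * δ t) := by
  refine ⟨u / t ^ (e + 1), ?_, ?_⟩
  · rw [map_div₀, map_pow, hu, div_self (pow_ne_zero _ h.pos.ne')]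
  · have h1 : u = t ^ (e + 1) * (u / t ^ (e + 1)) := by
      field_simp [h.ne]
    conv_lhs => rw [h1, Derivation.leibniz, Derivation.leibniz_pow]
    simp only [smul_eq_mul, nsmul_eq_mul, Nat.add_sub_cancel]
    ring

theorem Unif.der_lt (h : Unif v t) {δ : Derivation k K K} (hδ : Pres v δ) {u : K} (hu0 : u ≠ 0)
    (hu : v u < 1) (hδu : v (δ u) ≤ v u) {b : K} (hb : v b < 1) : v (δ b) < 1 := by
  obtain ⟨e, he⟩ := h.exists_nat hu0 hu
  obtain ⟨w, hw, hw'⟩ := h.der_eq δ he
  have h1 : v (t * δ w + w * ((e + 1 : ℕ) : K) * δ t) ≤ v t := by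
    rw [hw', map_mul, map_pow, he, pow_succ] at hδu
    exact le_of_mul_le_mul_left hδu (pow_pos h.pos e)
  have h2 : v (t * δ w) ≤ v t := by
    rw [map_mul]
    exact mul_le_of_le_one_right' (hδ w hw.le)
  have h3 : v (δ t) < 1 := by
    have h4 := v.map_sub_le h1 h2
    rw [add_sub_cancel_left, map_mul, map_mul, hw, h.char _ (Nat.succ_ne_zero e), one_mul,
      one_mul] at h4
    exact h4.trans_lt h.lt
  have h4 : v (b / t) ≤ 1 := by
    rw [map_div₀, div_le_one₀ h.pos]
    exact h.le_of_lt hb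
  have h5 : b = t * (b / t) := by field_simp [h.ne]
  rw [h5, Derivation.leibniz, smul_eq_mul, smul_eq_mul]
  refine v.map_add_lt ?_ ?_
  · rw [map_mul]
    exact (mul_le_of_le_one_right' (hδ _ h4)).trans_lt h.lt
  · rw [map_mul]
    exact (mul_le_of_le_one_left' h4).trans_lt h3

theorem der_eval_lt {δ : Derivation k K K} {a : K} (ha : v a ≤ 1) (q : K[X])
    (hq : ∀ i, v (δ (q.coeff i)) < 1) :
    v (δ (q.eval a) - q.derivative.eval a * δ a) < 1 := by
  have h1 : δ (q.eval a) - q.derivative.eval a * δ a =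
      ∑ i ∈ q.support, a ^ i * δ (q.coeff i) := by
    rw [eval_eq_sum, derivative_eval, Polynomial.sum, Polynomial.sum, map_sum, sum_mul,
      ← sum_sub_distrib]
    refine sum_congr rfl fun i _ => ?_
    rw [Derivation.leibniz, Derivation.leibniz_pow]
    simp only [smul_eq_mul, nsmul_eq_mul]
    ring
  rw [h1]
  refine v.map_sum_lt one_ne_zero fun i _ => ?_
  rw [map_mul, map_pow]
  exact (mul_le_of_le_one_left' (pow_le_one' ha i)).trans_lt (hq i)

theorem eval_le_one {a : K} (ha : v a ≤ 1) (q : K[X]) (hq : ∀ i, v (q.coeff i) ≤ 1) :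
    v (q.eval a) ≤ 1 := by
  rw [eval_eq_sum, Polynomial.sum]
  refine v.map_sum_le fun i _ => ?_
  rw [map_mul, map_pow]
  exact mul_le_one' (hq i) (pow_le_one' ha i)

/-- A derivation of the residue field which kills the image of `R` kills what is algebraic
over it. -/
theorem Unif.der_lt_of_alg (h : Unif v t) {δ : Derivation k K K}
    (hm : ∀ b, v b < 1 → v (δ b) < 1) {R : Subring K} (hR : ∀ r ∈ R, v r ≤ 1)
    (hδR : ∀ r ∈ R, v (δ r) < 1) {a : K} (ha : v a ≤ 1) (q : K[X]) (hq : ∀ i, q.coeff i ∈ R)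
    (hq1 : ∃ i, v (q.coeff i) = 1) (hqa : v (q.eval a) < 1) : v (δ a) < 1 := by
  induction hd : q.natDegree using Nat.strong_induction_on generalizing q with
  | _ d ih =>
  have h1 : v (q.derivative.eval a * δ a) < 1 := by
    have h2 := v.map_sub_lt (hm _ hqa) (der_eval_lt ha q fun i => hδR _ (hq i))
    rwa [sub_sub_cancel] at h2
  have hq' : ∀ i, q.derivative.coeff i ∈ R := by
    intro i
    rw [coeff_derivative]
    exact R.mul_mem (hq _) (R.add_mem (natCast_mem R i) R.one_mem)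
  rcases (eval_le_one ha q.derivative fun i => hR _ (hq' i)).eq_or_lt with h2 | h2
  · rwa [map_mul, h2, one_mul] at h1
  have h3 : ∃ i, v (q.coeff (i + 1)) = 1 := by
    by_contra hcon
    push Not at hcon
    have h4 : ∀ i, v (q.coeff (i + 1)) < 1 := fun i => (hR _ (hq _)).lt_of_ne (hcon i)
    obtain ⟨i, hi⟩ := hq1
    rcases i with _ | i
    · have h5 : v (q.eval a - q.coeff 0) < 1 := by
        rw [eval_eq_sum_range, sum_range_succ', pow_zero, mul_one, add_sub_cancel_right]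
        refine v.map_sum_lt one_ne_zero fun j _ => ?_
        rw [map_mul, map_pow]
        exact (mul_le_of_le_one_right' (pow_le_one' ha _)).trans_lt (h4 j)
      have h6 := v.map_sub_lt hqa h5
      rw [sub_sub_cancel, hi] at h6
      exact lt_irrefl _ h6
    · exact hcon i hi
  obtain ⟨i, hi⟩ := h3
  have h4 : q.natDegree ≠ 0 := by
    intro h0
    rw [coeff_eq_zero_of_natDegree_lt (by omega), map_zero] at hi
    exact zero_ne_one hi
  refine ih _ (hd ▸ natDegree_derivative_lt h4) q.derivative hq' ⟨i, ?_⟩ h2 rfl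
  rw [coeff_derivative, map_mul, hi, one_mul]
  exact_mod_cast h.char (i + 1) (Nat.succ_ne_zero i)

/-- The valuation ring of `v` is a localisation of the ring `A`, which is finite over `R`. -/
structure Cen (v : Valuation K Γ) (R A : Subring K) : Prop where
  le : ∀ a ∈ A, v a ≤ 1
  sub : R ≤ A
  int : ∀ a ∈ A, IsIntegral R a
  fg : ∃ G : Finset K, (G : Set K) ⊆ A ∧ A ≤ Subring.closure ((R : Set K) ∪ G)
  loc : ∀ z, v z ≤ 1 → ∃ a ∈ A, ∃ s ∈ A, v s = 1 ∧ z * s = a

theorem Cen.der_frac {R A : Subring K} (hc : Cen v R A) {δ : Derivation k K K} {g : Γ}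
    (hA : ∀ a ∈ A, v (δ a) ≤ g) {z : K} (hz : v z ≤ 1) : v (δ z) ≤ g := by
  obtain ⟨a, ha, s, hs, hs1, hzs⟩ := hc.loc z hz
  have h1 : s * δ z = δ a - z * δ s := by
    rw [← hzs, Derivation.leibniz, smul_eq_mul, smul_eq_mul]
    ring
  have h2 : v (s * δ z) ≤ g := by
    rw [h1]
    refine v.map_sub_le (hA a ha) ?_
    rw [map_mul]
    exact (mul_le_of_le_one_left' hz).trans (hA s hs)
  rwa [map_mul, hs1, one_mul] at h2

theorem Cen.bounded (h : Unif v t) {R A : Subring K} (hc : Cen v R A) {δ : Derivation k K K}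
    (hδR : ∀ r ∈ R, v (δ r) ≤ 1) : ∃ N : ℕ, Pres v (t ^ N • δ) := by
  obtain ⟨G, hGA, hG⟩ := hc.fg
  choose n hn using fun z : K => h.exists_pow_mul_le (δ z)
  have hmono : ∀ (z : K) (a b : ℕ), a ≤ b → v (t ^ a * z) ≤ 1 → v (t ^ b * z) ≤ 1 := by
    intro z a b hab hz
    obtain ⟨c, rfl⟩ := Nat.exists_eq_add_of_le hab
    rw [add_comm, pow_add, mul_assoc, map_mul, map_pow]
    exact mul_le_one' (pow_le_one' h.lt.le c) hz
  refine ⟨G.sup n, fun z hz => hc.der_frac (fun a ha => ?_) hz⟩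
  have key : v a ≤ 1 ∧ v ((t ^ G.sup n • δ) a) ≤ 1 := by
    refine Subring.closure_induction (p := fun a _ => v a ≤ 1 ∧ v ((t ^ G.sup n • δ) a) ≤ 1)
      ?_ ?_ ?_ ?_ ?_ ?_ (hG ha)
    · rintro x (hx | hx)
      · exact ⟨hc.le x (hc.sub hx), hmono _ 0 _ (Nat.zero_le _) (by simpa using hδR x hx)⟩
      · exact ⟨hc.le x (hGA hx), hmono _ _ _ (Finset.le_sup hx) (hn x)⟩
    · simp
    · simp
    · intro x y _ _ hx hy
      exact ⟨v.map_add_le hx.1 hy.1, by rw [map_add]; exact v.map_add_le hx.2 hy.2⟩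
    · intro x _ hx
      exact ⟨by simpa using hx.1, by rw [map_neg, Valuation.map_neg]; exact hx.2⟩
    · intro x y _ _ hx hy
      refine ⟨by rw [map_mul]; exact mul_le_one' hx.1 hy.1, ?_⟩
      rw [Derivation.leibniz, smul_eq_mul, smul_eq_mul]
      refine v.map_add_le ?_ ?_
      · rw [map_mul]
        exact mul_le_one' hx.1 hy.2
      · rw [map_mul]
        exact mul_le_one' hy.1 hx.2
  exact key.2

/-- A derivation which maps `R` into the valuation ring, and `u` into `u / t` times the valuation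
ring, preserves the valuation ring. -/
theorem Cen.pres (h : Unif v t) {R A : Subring K} (hc : Cen v R A) {δ : Derivation k K K}
    (hδR : ∀ r ∈ R, v (δ r) ≤ 1) {u : K} (hu0 : u ≠ 0) (hu : v u < 1)
    (hδu : v (t * δ u) ≤ v u) : Pres v δ := by
  obtain ⟨N, hN⟩ := hc.bounded h hδR
  induction N with
  | zero => simpa using hN
  | succ N ih =>
  apply ih
  have h0 : ∀ z, v ((t ^ (N + 1) • δ) z) ≤ v (t * δ z) := by
    intro z
    rw [Derivation.smul_apply, smul_eq_mul, pow_succ, mul_assoc, map_mul, map_pow]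
    exact mul_le_of_le_one_left' (pow_le_one' h.lt.le N)
  have h1 : ∀ b, v b < 1 → v ((t ^ (N + 1) • δ) b) < 1 := fun b hb =>
    h.der_lt hN hu0 hu ((h0 u).trans hδu) hb
  have h2 : ∀ r ∈ R, v ((t ^ (N + 1) • δ) r) < 1 := by
    intro r hr
    refine (h0 r).trans_lt ?_
    rw [map_mul]
    exact (mul_le_of_le_one_right' (hδR r hr)).trans_lt h.lt
  have h3 : ∀ a ∈ A, v ((t ^ (N + 1) • δ) a) ≤ v t := by
    intro a ha
    obtain ⟨p, hp, hpa⟩ := hc.int a ha
    refine h.le_of_lt (h.der_lt_of_alg h1 (fun r hr => hc.le r (hc.sub hr)) h2 (hc.le a ha)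
      (p.map (algebraMap R K)) (fun i => ?_) ⟨p.natDegree, ?_⟩ ?_)
    · rw [coeff_map]
      exact (p.coeff i).2
    · rw [coeff_map, hp.coeff_natDegree, map_one, map_one]
    · rw [eval_map, hpa, map_zero]
      exact zero_lt_one
  intro z hz
  have h4 := hc.der_frac h3 hz
  rw [Derivation.smul_apply, smul_eq_mul, pow_succ', mul_assoc, map_mul] at h4
  rw [Derivation.smul_apply, smul_eq_mul]
  exact (mul_le_iff_le_one_right h.pos).1 h4

end P297Z.Diff
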