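import Vale.Agent.P297Z.Diff.Dual
import Vale.Agent.P297Z.Gr.Dual

/-!
# The graded dual of the module of sections of `O(D)` is the module of sections of `O(K - D)`
-/

namespace Vale.Agent.P297Z.SB

open Vale.Agent.P297Z.Sf Vale.Agent.P297Z.Gr MvPolynomial

theorem aeval_scale {L : Type*} [CommRing L] [Algebra ℂ L] {n : ℕ} {t : T} (ht : t ∈ Tz n)
    (c : L) (z : Fin 3 → L) : aeval (fun i => c * z i) t = c ^ n * aeval z t := by
  rw [t.as_sum, map_sum, map_sum, Finset.mul_sum]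
  refine Finset.sum_congr rfl fun s hs => ?_
  have h1 := mem_Tz.1 ht s (mem_support_iff.1 hs)
  have h2 : n = s 0 + s 1 + s 2 := by
    unfold dg at h1
    omega
  rw [aeval_monomial, aeval_monomial, Finsupp.prod_fintype _ _ (by simp),
    Finsupp.prod_fintype _ _ (by simp), Fin.prod_univ_three, Fin.prod_univ_three, h2]
  ring

theorem aeval_dehom {L : Type*} [CommRing L] [Algebra ℂ L] (y : Fin 2 → L) (t : T) :
    aeval y (aeval ![(1 : MvPolynomial (Fin 2) ℂ), X 0, X 1] t) = aeval ![1, y 0, y 1] t := by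
  rw [← AlgHom.comp_apply, comp_aeval]
  congr 2
  ext i
  fin_cases i <;> simp

variable {K : Type} [Field K] [Algebra ℂ K] {S : Surf K}

/-- The evaluation is injective on the forms of a given degree. -/
theorem eq_zero_of_aeval {n : ℤ} {t : T} (ht : t ∈ Tz n) (h : aeval S.x t = 0) : t = 0 := by
  rcases lt_or_ge n 0 with hn | hn
  · exact eq_zero_of_neg hn ht
  obtain ⟨k, rfl⟩ := Int.eq_ofNat_of_zero_le hn
  have h1 : aeval ![(1 : MvPolynomial (Fin 2) ℂ), X 0, X 1] t = 0 := by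
    apply S.indep
    have h2 := aeval_scale ht (S.x 0)⁻¹ S.x
    rw [h, mul_zero] at h2
    rw [aeval_dehom, map_zero, ← h2]
    congr 2
    ext i
    fin_cases i <;> simp [S.x_ne 0, div_eq_inv_mul]
  have h2 : X 0 * t = 0 := by
    refine MvPolynomial.funext fun z => ?_
    rw [map_mul, eval_X, map_zero]
    by_cases hz : z 0 = 0
    · rw [hz, zero_mul]
    have h3 := aeval_scale ht (z 0) ![1, z 1 / z 0, z 2 / z 0]
    have h4 := aeval_dehom ![z 1 / z 0, z 2 / z 0] t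
    rw [h1, map_zero] at h4
    have h5 : (fun i => z 0 * ![1, z 1 / z 0, z 2 / z 0] i) = z := by
      ext i
      fin_cases i <;> simp [mul_div_cancel₀ _ hz]
    rw [h5] at h3
    simp only [Matrix.cons_val_zero, Matrix.cons_val_one] at h4
    rw [← h4, mul_zero] at h3
    rw [← coe_aeval_eq_eval, RingHom.coe_coe, h3, mul_zero]
  exact (mul_eq_zero.1 h2).resolve_left (X_ne_zero 0)

theorem aeval_mem_Xp {n : ℤ} {t : T} (ht : t ∈ Tz n) : aeval S.x t ∈ S.Xp n := by
  rcases lt_or_ge n 0 with hn | hn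
  · rw [eq_zero_of_neg hn ht, map_zero]
    exact zero_mem _
  obtain ⟨k, rfl⟩ := Int.eq_ofNat_of_zero_le hn
  rw [Surf.Xp, if_pos hn, Int.toNat_natCast]
  clear hn
  induction k generalizing t with
  | zero =>
    rw [eq_C ht, aeval_C, pow_zero]
    exact Submodule.algebraMap_mem _
  | succ k ih =>
    obtain ⟨g, hg, rfl⟩ := exists_X_sum (by omega) ht
    rw [map_sum, pow_succ']
    refine sum_mem fun i _ => ?_
    rw [map_mul, aeval_X]
    exact Submodule.mul_mem_mul (x_mem_X S i) (ih (by simpa using hg i))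

theorem exists_form_of_pow {k : ℕ} {q : K} (hq : q ∈ S.X ^ k) : ∃ t ∈ Tz k, aeval S.x t = q := by
  refine Submodule.pow_induction_on_left' S.X (C := fun k q _ => ∃ t ∈ Tz k, aeval S.x t = q)
    (fun r => ⟨C r, C_mem r, aeval_C _ _⟩) ?_ ?_ hq
  · rintro _ _ i _ _ ⟨t, ht, rfl⟩ ⟨t', ht', rfl⟩
    exact ⟨t + t', add_mem ht ht', map_add _ _ _⟩
  · rintro a ha i _ _ ⟨t, ht, rfl⟩
    obtain ⟨c, rfl⟩ := (Submodule.mem_span_range_iff_exists_fun ℂ).1 ha
    refine ⟨(∑ l, C (c l) * X l) * t, Tz_mul' (sum_mem fun l _ =>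
      Tz_mul' (C_mem _) (X_mem l) (zero_add 1)) ht (by push_cast; ring), ?_⟩
    simp [Algebra.smul_def]

theorem exists_form {n : ℤ} {q : K} (hq : q ∈ S.Xp n) : ∃ t ∈ Tz n, aeval S.x t = q := by
  unfold Surf.Xp at hq
  split_ifs at hq with hn
  · obtain ⟨k, rfl⟩ := Int.eq_ofNat_of_zero_le hn
    exact exists_form_of_pow hq
  · exact ⟨0, zero_mem _, by rw [map_zero, (Submodule.mem_bot ℂ).1 hq]⟩

theorem exists_form_of_Rp {r : K} (hr : r ∈ Rp S 0) :
    ∃ (d : ℤ) (t : T), t ∈ Tz d ∧ r = aeval S.x t / S.x 0 ^ d := by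
  obtain ⟨n, hn⟩ := exists_pow_of_mem_chart (x_mem_X S 0) (S.x_ne 0) (Rp_le_chart_X S 0 hr)
  obtain ⟨t, ht, h⟩ := exists_form_of_pow hn
  exact ⟨n, t, ht, by rw [h, zpow_natCast, mul_div_cancel_right₀ _ (pow_ne_zero _ (S.x_ne 0))]⟩

/-- The trace is linear over the function field of the plane. -/
theorem tr_mul {c : K} (hc : c ∈ S.F) (n : ℤ) (f : K) : S.tr n (c * f) = c * S.tr n f := by
  have h1 : c * f / S.x 0 ^ n = (⟨c, hc⟩ : S.F) • (f / S.x 0 ^ n) := mul_div_assoc _ _ _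
  rw [Surf.tr, h1, map_smul, Surf.tr, smul_eq_mul, MulMemClass.coe_mul, mul_assoc]

theorem tr_x_mul (i : Fin 3) (n : ℤ) (f : K) : S.tr (n + 1) (S.x i * f) = S.x i * S.tr n f := by
  have h0 := S.x_ne 0
  have h1 : S.x i * f / S.x 0 ^ (n + 1) =
      (⟨_, div_mem_F S 0 i⟩ : S.F) • (f / S.x 0 ^ n) := by
    change _ = S.x i / S.x 0 * (f / S.x 0 ^ n)
    rw [zpow_add₀ h0, zpow_one]
    field_simp
  rw [Surf.tr, h1, map_smul, Surf.tr, smul_eq_mul, MulMemClass.coe_mul,
    show n + 1 - 3 = n - 3 + 1 by ring, zpow_add₀ h0, zpow_one]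
  field_simp

/-- The trace as a linear map. -/
noncomputable def trL (S : Surf K) (n : ℤ) : K →ₗ[ℂ] K where
  toFun := S.tr n
  map_add' f g := by simp [Surf.tr, add_div, add_mul]
  map_smul' c f := by
    rw [RingHom.id_apply, Algebra.smul_def, Algebra.smul_def, tr_mul (S.F.algebraMap_mem c)]

theorem exists_ne_zero_secIn (D : Sf.Div S.W) :
    ∃ f, f ≠ 0 ∧ f ∈ secIn (S.x 0) D := by
  by_cases h : ∃ C : Crv S.W, C.In (S.x 0)
  · obtain ⟨C, hC⟩ := h
    obtain ⟨f, hf0, -, hf⟩ := exists_approx S.model hC (S.x_mem 0) D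
    exact ⟨f, hf0, Or.inr hf⟩
  · exact ⟨1, one_ne_zero, Or.inr fun C hC => absurd ⟨C, hC⟩ h⟩

/-- The pairing is nondegenerate. -/
theorem eq_zero_of_tr (hL : S.Loc) {D : Sf.Div S.W} {m : ℤ} {g : K}
    (h : ∀ j, ∀ f ∈ M D j, S.tr (j + m) (g * f) = 0) : g = 0 := by
  have := hL.findim
  have := charZero K
  obtain ⟨f, hf0, hf⟩ := exists_ne_zero_secIn D
  have h0 := S.x_ne 0
  have h1 : g * f / S.x 0 ^ m = 0 := by
    refine (traceForm_nondegenerate S.F K).1 _ fun z => ?_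
    have h2 : IsAlgebraic (Rp S 0) z := by
      rw [Rp_eq]
      exact (yc_trb hL 0).isAlgebraic.isAlgebraic z
    obtain ⟨r, hr0, hr⟩ := h2.exists_integral_multiple
    have h3 : (r : K) * z ∈ secIn (S.x 0) (0 : Sf.Div S.W) := Or.inr fun C hC => by
      rw [Finsupp.zero_apply, add_zero]
      exact Pl.ord_nonneg_of_mem C.pl (mem_of_integral
        (fun r hr => (Pl.mem_ring_iff _ _).2 (In.le hC (Rp_le S 0 hr))) hr)
    have h4 : f * (r * z) ∈ secIn (S.x 0) D := by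
      have h4 := mul_mem_secOn hf h3
      rwa [add_zero] at h4
    obtain ⟨n, hn⟩ := exists_mul_pow_mem_M S.model (S.x_mem 0) h0 h4
    have h5 := h _ _ hn
    have h6 : g * (f * (r * z) * S.x 0 ^ n) / S.x 0 ^ (n + m : ℤ) =
        (⟨r, Rp_le_F S 0 r.2⟩ : S.F) • (g * f / S.x 0 ^ m * z) := by
      change _ = (r : K) * _
      rw [zpow_add₀ h0, zpow_natCast]
      field_simp
    rw [Surf.tr, h6, map_smul, smul_eq_mul, MulMemClass.coe_mul, mul_eq_zero, mul_eq_zero] at h5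
    rcases h5 with (h5 | h5) | h5
    · exact absurd (Subtype.ext h5) hr0
    · exact Subtype.ext h5
    · exact absurd h5 (zpow_ne_zero _ h0)
  rcases div_eq_zero_iff.1 h1 with h2 | h2
  · exact (mul_eq_zero.1 h2).resolve_right hf0
  · exact absurd h2 (zpow_ne_zero _ h0)

variable [Module T K] [IsScalarTower ℂ T K] (hT : ∀ (i : Fin 3) (f : K), (X i : T) • f = S.x i * f)
include hT

theorem smul_eq (t : T) (f : K) : t • f = aeval S.x t * f := by
  induction t using MvPolynomial.induction_on generalizing f with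
  | C a => rw [C_smul, aeval_C, Algebra.smul_def]
  | add p q hp hq => rw [add_smul, hp, hq, map_add, add_mul]
  | mul_X p i hp => rw [mul_smul, hp, hT, map_mul, aeval_X, mul_assoc]

omit [IsScalarTower ℂ T K] in
theorem stab_M (D : Sf.Div S.W) : Stab (M D) := by
  intro i m f hf
  rw [hT, mul_comm]
  simpa using mul_mem_M hf (mem_M_one S.model (S.x_mem i))

/-- Every homogeneous map `M_D → T(-3)` is given by the trace form. -/
theorem exists_tr (hL : S.Loc) {D : Sf.Div S.W} {hM : Stab (M D)} {m : ℤ}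
    {ψ : ∀ j, M D j →ₗ[ℂ] T} (hψ : ψ ∈ Gr.Dual hM m) :
    ∃ g : K, ∀ j (f : M D j), aeval S.x (ψ j f) = S.tr (j + m) (g * f) := by
  have := hL.findim
  have := charZero K
  have h0 := S.x_ne 0
  let Rel : ℤ → K → K → Prop := fun j z c => ∃ hf : z * S.x 0 ^ (j + m) ∈ M D j,
    aeval S.x (ψ j ⟨_, hf⟩) = c * S.x 0 ^ (j + m - 3)
  have hmul : ∀ {d : ℤ} {t : T}, t ∈ Tz d → ∀ {j z c}, Rel j z c →
      Rel (j + d) (aeval S.x t / S.x 0 ^ d * z) (aeval S.x t / S.x 0 ^ d * c) := by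
    rintro d t ht j z c ⟨hf, h⟩
    have e : aeval S.x t / S.x 0 ^ d * z * S.x 0 ^ (j + d + m) = t • (z * S.x 0 ^ (j + m)) := by
      rw [smul_eq hT, show j + d + m = j + m + d by ring, zpow_add₀ h0 (j + m)]
      field_simp
    refine ⟨e ▸ hM.smul ht hf rfl, ?_⟩
    rw [show (⟨_, _⟩ : M D (j + d)) = ⟨_, hM.smul ht hf rfl⟩ from Subtype.ext e,
      hψ.2.smul ht hf rfl, smul_eq_mul, map_mul, h, show j + d + m - 3 = j + m - 3 + d by ring,
      zpow_add₀ h0 (j + m - 3)]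
    field_simp
  have hshift : ∀ {j j' z c}, j ≤ j' → Rel j z c → Rel j' z c := by
    intro j j' z c hj h
    obtain ⟨e, rfl⟩ := Int.le.dest hj
    have h1 := hmul (X_pow_mem 0 e) h
    rwa [map_pow, aeval_X, zpow_natCast, div_self (pow_ne_zero _ h0), one_mul, one_mul] at h1
  have hR : ∀ r ∈ Rp S 0, ∀ {j z c}, Rel j z c → ∃ j', Rel j' (r * z) (r * c) := by
    intro r hr j z c h
    obtain ⟨d, t, ht, rfl⟩ := exists_form_of_Rp hr
    exact ⟨_, hmul ht h⟩
  have hadd : ∀ {j j' z c z' c'}, Rel j z c → Rel j' z' c' →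
      Rel (max j j') (z + z') (c + c') := by
    intro j j' z c z' c' h h'
    obtain ⟨hf, h1⟩ := hshift (le_max_left j j') h
    obtain ⟨hf', h1'⟩ := hshift (le_max_right j j') h'
    refine ⟨by rw [add_mul]; exact add_mem hf hf', ?_⟩
    rw [add_mul c, ← h1, ← h1', ← map_add, ← map_add]
    congr 2
    exact Subtype.ext (add_mul _ _ _)
  let Γ : Submodule S.F (K × S.F) :=
    { carrier := {p | ∃ r ∈ Rp S 0, r ≠ 0 ∧ ∃ j, Rel j (r * p.1) (r * p.2)}
      zero_mem' := ⟨1, one_mem _, one_ne_zero, 0, by simp, by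
        rw [show (⟨_, _⟩ : M D 0) = 0 from Subtype.ext (by simp)]
        simp⟩
      add_mem' := by
        rintro p q ⟨r, hr, hr0, j, h⟩ ⟨r', hr', hr0', j', h'⟩
        obtain ⟨k, h1⟩ := hR r' hr' h
        obtain ⟨k', h2⟩ := hR r hr h'
        refine ⟨r * r', mul_mem hr hr', mul_ne_zero hr0 hr0', max k k', ?_⟩
        have h3 := hadd h1 h2
        rw [show r' * (r * p.1) + r * (r' * q.1) = r * r' * (p + q).1 by simp; ring,
          show r' * (r * (p.2 : K)) + r * (r' * q.2) = r * r' * (p + q).2 by simp; ring] at h3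
        exact h3
      smul_mem' := by
        rintro c p ⟨r, hr, hr0, j, h⟩
        obtain ⟨a, b, hb, hab⟩ := exists_frac_F S 0 c.2
        obtain ⟨k, h1⟩ := hR _ ((mem_Rp S).2 ⟨a, rfl⟩) h
        refine ⟨r * aeval (yc S 0) b, mul_mem hr ((mem_Rp S).2 ⟨b, rfl⟩), mul_ne_zero hr0 hb, k,
          ?_⟩
        have e1 : r * aeval (yc S 0) b * (c • p).1 = aeval (yc S 0) a * (r * p.1) := by
          change _ * ((c : K) * p.1) = _
          rw [← hab]
          ring
        have e2 : r * aeval (yc S 0) b * (c • p).2 = aeval (yc S 0) a * (r * p.2) := by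
          change _ * ((c : K) * p.2) = _
          rw [← hab]
          ring
        rw [e1, e2]
        exact h1 }
  have hΓ : ∀ p ∈ Γ, p.1 = 0 → p.2 = 0 := by
    rintro p ⟨r, -, hr0, j, hf, h⟩ hp
    rw [show (⟨_, hf⟩ : M D j) = 0 from Subtype.ext (by simp [hp]), map_zero, map_zero] at h
    exact Subtype.ext ((mul_eq_zero.1 ((mul_eq_zero.1 h.symm).resolve_right
      (zpow_ne_zero _ h0))).resolve_left hr0)
  obtain ⟨lam, hlam⟩ := LinearMap.exists_extend Γ.toLinearPMap.toFun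
  obtain ⟨g, hg⟩ := ((Algebra.traceForm S.F K).toDual
    (traceForm_nondegenerate S.F K)).surjective lam
  refine ⟨g, fun j f => ?_⟩
  have h1 : aeval S.x (ψ j f) / S.x 0 ^ (j + m - 3) ∈ S.F :=
    Rp_le_F S 0 (div_mem_Rp (aeval_mem_Xp (hψ.1 j f)) 0)
  have e : 1 * ((f : K) / S.x 0 ^ (j + m)) * S.x 0 ^ (j + m) = f := by
    rw [one_mul, div_mul_cancel₀ _ (zpow_ne_zero _ h0)]
  have h2 : ((f : K) / S.x 0 ^ (j + m), (⟨_, h1⟩ : S.F)) ∈ Γ :=
    ⟨1, one_mem _, one_ne_zero, j, e.symm ▸ f.2, by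
      rw [show (⟨_, _⟩ : M D j) = f from Subtype.ext e, one_mul,
        div_mul_cancel₀ _ (zpow_ne_zero _ h0)]⟩
  rw [← Γ.toLinearPMap_graph_eq hΓ, LinearPMap.mem_graph_iff] at h2
  obtain ⟨y, hy1, hy2⟩ := h2
  have h3 : lam y = Γ.toLinearPMap y := LinearMap.congr_fun hlam y
  rw [hy2, hy1, ← hg, LinearMap.BilinForm.toDual_def, Algebra.traceForm_apply] at h3
  rw [Surf.tr, mul_div_assoc, h3, div_mul_cancel₀ _ (zpow_ne_zero _ h0)]

/-- The graded dual of `M_D` is `M_{K - D}`. -/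
theorem nonempty_equiv_dual (hL : S.Loc) (D : Sf.Div S.W) (hM : Stab (M D)) (m : ℤ) :
    Nonempty (Gr.Dual hM m ≃ₗ[ℂ] M (S.kap - D) m) := by
  have hD := dual_of_loc hL D m
  have hinj : ∀ {n : ℤ} {a b : T}, a ∈ Tz n → b ∈ Tz n → aeval S.x a = aeval S.x b → a = b :=
    fun ha hb h => sub_eq_zero.1 (eq_zero_of_aeval (S := S) (sub_mem ha hb)
      (by rw [map_sub, h, sub_self]))
  let Φ : Gr.Dual hM m →ₗ[ℂ] ∀ j, M D j →ₗ[ℂ] K :=
    { toFun := fun ψ j => (aeval S.x : T →ₐ[ℂ] K).toLinearMap ∘ₗ ψ.1 j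
      map_add' := fun _ _ => by ext; simp
      map_smul' := fun _ _ => by ext; simp }
  let Ψ : M (S.kap - D) m →ₗ[ℂ] ∀ j, M D j →ₗ[ℂ] K :=
    { toFun := fun g j => trL S (j + m) ∘ₗ LinearMap.mulLeft ℂ (g : K) ∘ₗ (M D j).subtype
      map_add' := fun _ _ => by ext; simp [add_mul]
      map_smul' := fun _ _ => by ext; simp }
  have hΦ : Function.Injective Φ := by
    refine fun ψ ψ' h => Subtype.ext (funext fun j => LinearMap.ext fun f => ?_)
    exact hinj (ψ.2.1 j f) (ψ'.2.1 j f) (LinearMap.congr_fun (congrFun h j) f)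
  have hΨ : Function.Injective Ψ := by
    refine (injective_iff_map_eq_zero Ψ).2 fun g h => Subtype.ext ?_
    exact eq_zero_of_tr hL fun j f hf => LinearMap.congr_fun (congrFun h j) ⟨f, hf⟩
  have hr : LinearMap.range Φ = LinearMap.range Ψ := by
    refine le_antisymm ?_ ?_
    · rintro _ ⟨ψ, rfl⟩
      obtain ⟨g, hg⟩ := exists_tr hT hL ψ.2
      refine ⟨⟨g, (hD g).2 fun j f hf => ?_⟩, funext fun j => LinearMap.ext fun f => (hg j f).symm⟩
      rw [← hg j ⟨f, hf⟩]
      exact aeval_mem_Xp (ψ.2.1 j _)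
    · rintro _ ⟨g, rfl⟩
      choose t ht ht' using fun j (f : M D j) => exists_form ((hD g).1 g.2 j f f.2)
      let ψ : ∀ j, M D j →ₗ[ℂ] T := fun j =>
        { toFun := t j
          map_add' := fun f f' => hinj (ht j _) (add_mem (ht j f) (ht j f')) (by
            rw [map_add, ht', ht', ht', Submodule.coe_add, mul_add]
            exact (trL S (j + m)).map_add _ _)
          map_smul' := fun c f => hinj (ht j _) (Submodule.smul_mem _ c (ht j f)) (by
            rw [RingHom.id_apply, map_smul, ht', ht', Submodule.coe_smul, mul_smul_comm]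
            exact (trL S (j + m)).map_smul _ _) }
      refine ⟨⟨ψ, ht, fun i j f => hinj (ht _ _)
        (Tz_mul' (X_mem i) (ht j f) (by ring)) ?_⟩, funext fun j => LinearMap.ext fun f => ht' j f⟩
      change aeval S.x (t (j + 1) _) = aeval S.x (X i * t j f)
      rw [map_mul, aeval_X, ht', ht', ← tr_x_mul, add_right_comm, mul_left_comm, ← hT]
  exact ⟨(LinearEquiv.ofInjective Φ hΦ).trans
    ((LinearEquiv.ofEq _ _ hr).trans (LinearEquiv.ofInjective Ψ hΨ).symm)⟩

theorem finrank_dual (hL : S.Loc) (D : Sf.Div S.W) (hM : Stab (M D)) (m : ℤ) :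
    Module.finrank ℂ (Gr.Dual hM m) = Module.finrank ℂ (M (S.kap - D) m) :=
  (nonempty_equiv_dual hT hL D hM m).some.finrank_eq

end Vale.Agent.P297Z.SB
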