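import Vale.Agent.P297.H55.Dom
import Vale.Agent.P297Z.Diff.Der

/-!
# The order of a top form at a discrete valuation

`y : ι → K` are coordinates with dual derivations `d i`. If `u` vanishes at the centre of `v` and
some `d i u` is a unit, the form `dy_1 ∧ … ∧ dy_n` has the value of `u / t`.
-/

open Finset

namespace P297Z.Diff

variable {k K : Type*} [Field k] [Field K] [Algebra k K]
  {Γ : Type*} [LinearOrderedCommGroupWithZero Γ] {ι : Type*} [Fintype ι] [DecidableEq ι]

/-- `d` is the basis of derivations dual to the coordinates `y`. -/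
structure Coord (y : ι → K) (d : ι → Derivation k K K) : Prop where
  dual : ∀ i j, d i (y j) = if i = j then 1 else 0
  ext : ∀ w : Derivation k K K, (∀ j, w (y j) = 0) → w = 0

/-- The value `det (w_i a_j)` of the form `da_1 ∧ … ∧ da_n` on the derivations `w`. -/
noncomputable def jac (w : ι → Derivation k K K) (a : ι → K) : K :=
  (Matrix.of fun i j => w i (a j)).det

variable {y : ι → K} {d : ι → Derivation k K K} {v : Valuation K Γ} {t : K}

theorem der_sum_apply {α : Type*} (s : Finset α) (w : α → Derivation k K K) (a : K) :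
    (∑ j ∈ s, w j) a = ∑ j ∈ s, w j a := by
  classical
  induction s using Finset.induction_on with
  | empty => simp
  | insert j s hj ih => rw [sum_insert hj, sum_insert hj, Derivation.add_apply, ih]

theorem Coord.expand (hy : Coord y d) (w : Derivation k K K) (a : K) :
    w a = ∑ j, w (y j) * d j a := by
  have h1 := hy.ext (w - ∑ j, w (y j) • d j) fun l => by
    rw [Derivation.sub_apply, der_sum_apply]
    simp [hy.dual]
  have h2 := congrArg (fun D : Derivation k K K => D a) (sub_eq_zero.1 h1)
  simp only [der_sum_apply, Derivation.smul_apply, smul_eq_mul] at h2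
  exact h2

theorem Coord.jac_mul (hy : Coord y d) (w : ι → Derivation k K K) (a : ι → K) :
    jac w a = jac w y * jac d a := by
  rw [jac, jac, jac, ← Matrix.det_mul]
  congr 1
  ext i j
  rw [Matrix.mul_apply, Matrix.of_apply, hy.expand]
  rfl

theorem Coord.jac_self (hy : Coord y d) : jac d y = 1 := by
  rw [jac, ← Matrix.det_one (n := ι)]
  congr 1
  ext i j
  rw [Matrix.of_apply, hy.dual, Matrix.one_apply]

theorem det_updateCol_one (i : ι) (c : ι → K) :
    ((1 : Matrix ι ι K).updateCol i c).det = c i := by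
  rw [← Matrix.cramer_apply, Matrix.cramer_one]
  rfl

theorem Coord.jac_update (hy : Coord y d) (i : ι) (a : K) :
    jac d (Function.update y i a) = d i a := by
  rw [jac, ← det_updateCol_one i fun l => d l a]
  congr 1
  ext l j
  rw [Matrix.of_apply, Matrix.updateCol_apply]
  split_ifs with h
  · rw [h, Function.update_self]
  · rw [Function.update_of_ne h, hy.dual, Matrix.one_apply]

theorem jac_le_one {w : ι → Derivation k K K} (hw : ∀ i, Pres v (w i)) {a : ι → K}
    (ha : ∀ j, v (a j) ≤ 1) : v (jac w a) ≤ 1 := by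
  rw [jac, Matrix.det_apply']
  refine v.map_sum_le fun σ _ => ?_
  rw [map_mul, map_prod]
  refine mul_le_one' ?_ (prod_le_one' fun i _ => hw _ _ (ha _))
  rcases Int.units_eq_one_or (Equiv.Perm.sign σ) with h | h <;> simp [h]

omit [Fintype ι] in
theorem Coord.der_aeval (hy : Coord y d) (i : ι) (p : MvPolynomial ι k) :
    d i (MvPolynomial.aeval y p) = MvPolynomial.aeval y (MvPolynomial.pderiv i p) := by
  induction p using MvPolynomial.induction_on with
  | C a => simp
  | add p q hp hq => simp only [map_add, hp, hq]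
  | mul_X p j hp =>
    rw [map_mul, Derivation.leibniz, hp, MvPolynomial.aeval_X, hy.dual, MvPolynomial.pderiv_mul,
      MvPolynomial.pderiv_X, map_add, map_mul, map_mul, MvPolynomial.aeval_X, Pi.single_apply]
    by_cases h : i = j
    · subst h
      simp only [if_true, smul_eq_mul, map_one]
      ring
    · simp only [h, Ne.symm h, if_false, smul_eq_mul, map_zero]
      ring

/-- The frame of derivations adapted to `u`. -/
noncomputable def frame (d : ι → Derivation k K K) (t u : K) (i : ι) (j : ι) :
    Derivation k K K :=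
  if j = i then (u / t) • d i else d j - (d j u / d i u) • d i

theorem Coord.jac_frame (hy : Coord y d) (t u : K) (i : ι) : jac (frame d t u i) y = u / t := by
  have h := det_updateCol_one i fun j => if j = i then u / t else -(d j u / d i u)
  rw [if_pos rfl] at h
  rw [jac, ← h]
  congr 1
  ext l j
  rw [Matrix.of_apply, Matrix.updateCol_apply, frame, Matrix.one_apply]
  by_cases hl : l = i
  · subst hl
    by_cases hj : j = l
    · simp [hj, hy.dual]
    · simp [hj, hy.dual, Ne.symm hj]
  · by_cases hj : j = i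
    · simp [hl, hj, hy.dual]
    · simp [hl, hj, hy.dual, Ne.symm hj]

section Main

variable (h : Unif v t) {R A : Subring K} (hc : Cen v R A) (hR : ∀ i, ∀ r ∈ R, d i r ∈ R)
  {u : K} (huR : u ∈ R) (hu0 : u ≠ 0) (hu : v u < 1) {i : ι} (hi : v (d i u) = 1)
include h hc hR huR hu0 hu hi

omit [Fintype ι] in
theorem pres_frame (j : ι) : Pres v (frame d t u i j) := by
  have hut : v (u / t) ≤ 1 := by
    rw [map_div₀, div_le_one₀ h.pos]
    exact h.le_of_lt hu
  have hd : ∀ l, ∀ r ∈ R, v (d l r) ≤ 1 := fun l r hr => hc.le _ (hc.sub (hR l r hr))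
  have hi0 : d i u ≠ 0 := by
    intro h0
    rw [h0, map_zero] at hi
    exact zero_ne_one hi
  unfold frame
  split_ifs with hj
  · refine hc.pres h (fun r hr => ?_) hu0 hu ?_
    · rw [Derivation.smul_apply, smul_eq_mul, map_mul]
      exact mul_le_one' hut (hd i r hr)
    · rw [Derivation.smul_apply, smul_eq_mul, ← mul_assoc, mul_div_cancel₀ _ h.ne, map_mul, hi,
        mul_one]
  · refine hc.pres h (fun r hr => ?_) hu0 hu ?_
    · rw [Derivation.sub_apply, Derivation.smul_apply, smul_eq_mul]
      refine v.map_sub_le (hd j r hr) ?_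
      rw [map_mul, map_div₀, hi, div_one]
      exact mul_le_one' (hd j u huR) (hd i r hr)
    · rw [Derivation.sub_apply, Derivation.smul_apply, smul_eq_mul, div_mul_cancel₀ _ hi0,
        sub_self, mul_zero, map_zero]
      exact zero_le

omit [Fintype ι] in
theorem val_der_unif : v (u * d i t) = v t := by
  have h1 := pres_frame h hc hR huR hu0 hu hi i
  rw [frame, if_pos rfl] at h1
  obtain ⟨e, he⟩ := h.exists_nat hu0 hu
  obtain ⟨w, hw, hw'⟩ := h.der_eq ((u / t) • d i) he
  have h2 : v (t * ((u / t) • d i) w + w * ((e + 1 : ℕ) : K) * ((u / t) • d i) t) = 1 := by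
    have h3 := congrArg v hw'
    rw [Derivation.smul_apply, smul_eq_mul, map_mul, map_mul, hi, map_div₀, he, mul_one, map_pow,
      pow_succ, mul_div_cancel_right₀ _ h.pos.ne'] at h3
    exact mul_left_cancel₀ (pow_ne_zero e h.pos.ne') (h3.symm.trans (mul_one _).symm)
  have h3 : v (t * ((u / t) • d i) w) < 1 := by
    rw [map_mul]
    exact (mul_le_of_le_one_right' (h1 w hw.le)).trans_lt h.lt
  have h4 : v (w * ((e + 1 : ℕ) : K) * ((u / t) • d i) t) = 1 := by
    rw [← h2]
    refine (v.map_add_eq_of_lt_right ?_).symm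
    by_contra hcon
    have h5 := v.map_add_le (le_refl _) (not_lt.1 hcon)
    exact absurd (h5.trans_lt h3) (by rw [h2]; exact lt_irrefl _)
  rw [map_mul, map_mul, hw, h.char _ (Nat.succ_ne_zero e), one_mul, one_mul,
    Derivation.smul_apply, smul_eq_mul, div_mul_eq_mul_div, map_div₀,
    div_eq_one_iff_eq h.pos.ne'] at h4
  exact h4

variable (hy : Coord y d) (hyR : ∀ j, y j ∈ R)
include hy

/-- The Jacobian determinants of regular functions have order at least `1 - e`. -/
theorem val_jac_le {a : ι → K} (ha : ∀ j, v (a j) ≤ 1) : v (u * jac d a) ≤ v t := by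
  have h1 := jac_le_one (pres_frame h hc hR huR hu0 hu hi) ha
  rw [hy.jac_mul, hy.jac_frame, div_mul_eq_mul_div, map_div₀, div_le_one₀ h.pos] at h1
  exact h1

/-- The form `dy` takes a value of order `e - 1` on regular derivations. -/
theorem exists_val_form : ∃ w : ι → Derivation k K K, (∀ j, Pres v (w j)) ∧ jac w y = u / t :=
  ⟨_, pres_frame h hc hR huR hu0 hu hi, hy.jac_frame t u i⟩

include hyR

/-- Some Jacobian determinant of regular functions has order `1 - e`. -/
theorem exists_val_jac : ∃ a : ι → K, (∀ j, v (a j) ≤ 1) ∧ v (u * jac d a) = v t := by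
  refine ⟨Function.update y i t, fun j => ?_, ?_⟩
  · by_cases hj : j = i
    · rw [hj, Function.update_self]
      exact h.lt.le
    · rw [Function.update_of_ne hj]
      exact hc.le _ (hc.sub (hyR j))
  · rw [hy.jac_update]
    exact val_der_unif h hc hR huR hu0 hu hi

/-- The values of the form `dy` on regular derivations have order at least `e - 1`. -/
theorem val_form_le {w : ι → Derivation k K K} (hw : ∀ j, Pres v (w j)) :
    v (jac w y) ≤ v (u / t) := by
  obtain ⟨a, ha, ha'⟩ := exists_val_jac h hc hR huR hu0 hu hi hy hyR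
  have h1 := jac_le_one hw ha
  rw [hy.jac_mul, map_mul] at h1
  have hu' : 0 < v u := zero_lt_iff.2 ((_root_.map_ne_zero v).2 hu0)
  rw [map_div₀, le_div_iff₀ h.pos, ← ha', map_mul, mul_left_comm]
  exact mul_le_of_le_one_right' h1

end Main

section Poly

open MvPolynomial Vale.Agent.P297.H55

omit [Fintype ι] [DecidableEq ι] in
/-- A nonconstant polynomial has a nonzero derivative of smaller degree. -/
theorem exists_pderiv [CharZero k] {U : MvPolynomial ι k} (hU : ∀ c, U ≠ C c) :
    ∃ i, pderiv i U ≠ 0 ∧ (pderiv i U).totalDegree < U.totalDegree := by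
  obtain ⟨i, hi⟩ : ∃ i, pderiv i U ≠ 0 := by
    by_contra hcon
    push Not at hcon
    exact hU _ (eq_C_of_pderiv U hcon)
  refine ⟨i, hi, ?_⟩
  have h0 : U.totalDegree ≠ 0 := fun h0 => hU _ (totalDegree_eq_zero_iff_eq_C.1 h0)
  have h1 := totalDegree_pderiv_le U i (U.totalDegree - 1) (by omega)
  omega

omit [Fintype ι] [DecidableEq ι] in
theorem exists_not_dvd_pderiv [CharZero k] {U : MvPolynomial ι k} (hU : Prime U) :
    ∃ i, ¬U ∣ pderiv i U := by
  obtain ⟨i, hi, hlt⟩ := exists_pderiv (U := U) (by
    rintro c rfl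
    have hc : c ≠ 0 := by
      rintro rfl
      exact hU.ne_zero (map_zero _)
    exact hU.not_isUnit ((Ne.isUnit hc).map C))
  exact ⟨i, fun hdvd => absurd (totalDegree_le_of_dvd_of_isDomain hdvd hi) (not_le.2 hlt)⟩

omit [Fintype ι] [DecidableEq ι] in
/-- A nonzero proper ideal has a nonzero element with a derivative outside the ideal. -/
theorem exists_mem_pderiv_notMem [CharZero k] {P : Ideal (MvPolynomial ι k)} (h0 : P ≠ ⊥)
    (h1 : P ≠ ⊤) : ∃ U ∈ P, U ≠ 0 ∧ ∃ i, pderiv i U ∉ P := by
  classical
  have hex : ∃ n, ∃ U ∈ P, U ≠ 0 ∧ U.totalDegree = n := by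
    obtain ⟨U, hU, hU0⟩ := Submodule.exists_mem_ne_zero_of_ne_bot h0
    exact ⟨_, U, hU, hU0, rfl⟩
  obtain ⟨U, hU, hU0, hUn⟩ := Nat.find_spec hex
  obtain ⟨i, hi, hlt⟩ := exists_pderiv (U := U) (by
    rintro c rfl
    have hc : c ≠ 0 := by
      rintro rfl
      exact hU0 (map_zero _)
    exact h1 (P.eq_top_of_isUnit_mem hU ((Ne.isUnit hc).map C)))
  exact ⟨U, hU, hU0, i, fun hm => Nat.find_min hex (hUn ▸ hlt) ⟨_, hm, hi, rfl⟩⟩

end Poly

end P297Z.Diff
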