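import Vale.Agent.P297Z.Diff.Can

/-!
# The charts of the plane
-/

namespace Vale.Agent.P297Z.SB

open Vale.Agent.P297 (Place)
open Vale.Agent.P297Z.Sf _root_.P297Z.Diff MvPolynomial

variable {K : Type} [Field K] [Algebra ℂ K]

/-- A prime element of the polynomial ring in two variables does not define a point. -/
theorem not_dvd_both {U : MvPolynomial (Fin 2) ℂ} (hU : Prime U) {a b : ℂ}
    (ha : U ∣ X 0 - C a) (hb : U ∣ X 1 - C b) : False := by
  have hd : U.totalDegree ≠ 0 := fun h0 => by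
    rw [totalDegree_eq_zero_iff_eq_C] at h0
    have hc : coeff 0 U ≠ 0 := fun h => hU.ne_zero (by rw [h0, h, map_zero])
    exact hU.not_isUnit (h0 ▸ (Ne.isUnit hc).map C)
  have key : ∀ (j : Fin 2) (c : ℂ), U ∣ X j - C c → ∃ g : ℂ, X j - C c = C g * U := by
    rintro j c ⟨G, hG⟩
    by_cases hG0 : G = 0
    · exact ⟨0, by rw [hG, hG0]; simp⟩
    have h1 : (X j - C c : MvPolynomial (Fin 2) ℂ).totalDegree ≤ 1 :=
      (totalDegree_sub _ _).trans (by simp)
    rw [hG, totalDegree_mul_of_isDomain hU.ne_zero hG0] at h1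
    have h2 : G.totalDegree = 0 := by omega
    rw [totalDegree_eq_zero_iff_eq_C] at h2
    exact ⟨coeff 0 G, by rw [hG, ← h2, mul_comm]⟩
  obtain ⟨g, hg⟩ := key 0 a ha
  obtain ⟨h, hh⟩ := key 1 b hb
  have h1 := congrArg (pderiv 0) hg
  have h2 := congrArg (pderiv 0) hh
  have h3 := congrArg (pderiv 1) hh
  simp only [map_sub, pderiv_C, pderiv_C_mul, pderiv_X_self, sub_zero,
    pderiv_X_of_ne (show (1 : Fin 2) ≠ 0 by decide)] at h1 h2 h3
  rcases mul_eq_zero.1 h2.symm with h4 | h4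
  · rw [h4, zero_mul] at h3
    exact one_ne_zero h3
  · rw [h4, mul_zero] at h1
    exact one_ne_zero h1

/-- The degree of a polynomial is its order of pole at infinity. -/
theorem totalDegree_le_of_eq {a b : K} (hab : AlgebraicIndependent ℂ ![a, b]) (ha : a ≠ 0)
    {p r : MvPolynomial (Fin 2) ℂ} (hp : p ≠ 0) {N : ℤ}
    (h : aeval ![a⁻¹, b / a] p * a ^ N = aeval ![a, b] r) : (p.totalDegree : ℤ) ≤ N := by
  classical
  by_contra hlt
  obtain ⟨k, hk⟩ : ∃ k : ℕ, (p.totalDegree : ℤ) = N + (k + 1 : ℕ) :=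
    ⟨(p.totalDegree - N - 1).toNat, by omega⟩
  set d := p.totalDegree with hd
  have hsum : ∀ m : Fin 2 →₀ ℕ, m.sum (fun _ e => e) = m 0 + m 1 := fun m => by
    rw [Finsupp.sum_fintype _ _ (fun _ => rfl), Fin.sum_univ_two]
  let q : MvPolynomial (Fin 2) ℂ := ∑ m ∈ p.support,
    monomial (Finsupp.single 0 (d - (m 0 + m 1)) + Finsupp.single 1 (m 1)) (coeff m p)
  have h1 : aeval ![a, b] q = aeval ![a⁻¹, b / a] p * a ^ d := by
    conv_rhs => rw [p.as_sum]
    rw [map_sum, map_sum, Finset.sum_mul]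
    refine Finset.sum_congr rfl fun m hm => ?_
    have h2 : m 0 + m 1 ≤ d := hsum m ▸ le_totalDegree hm
    obtain ⟨e, he⟩ := Nat.exists_eq_add_of_le h2
    rw [aeval_monomial, aeval_monomial, Finsupp.prod_fintype _ _ (by simp),
      Finsupp.prod_fintype _ _ (by simp), Fin.prod_univ_two, Fin.prod_univ_two, he]
    simp
    rw [div_pow]
    field_simp
    ring
  have h2 : q = X 0 * (X 0 ^ k * r) := by
    apply hab
    rw [h1, map_mul, map_mul, map_pow, aeval_X, ← h, ← zpow_natCast a d, hk, zpow_add₀ ha,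
      zpow_natCast, pow_succ]
    simp
    ring
  obtain ⟨m, hm, hmd⟩ := Finset.exists_mem_eq_sup p.support (support_nonempty.2 hp)
    fun m => m.sum fun _ e => e
  have hmd' : d = m 0 + m 1 := hsum m ▸ hmd
  have h3 := congrArg (coeff (Finsupp.single 1 (m 1))) h2
  rw [coeff_X_mul', if_neg (by simp), coeff_sum, Finset.sum_eq_single m, coeff_monomial,
    if_pos (by rw [hmd']; simp)] at h3
  · exact mem_support_iff.1 hm h3
  · intro m' hm' hne
    rw [coeff_monomial, if_neg]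
    intro he
    have h4 := congrArg (fun f => f 0) he
    have h5 := congrArg (fun f => f 1) he
    have h6 : m' 0 + m' 1 ≤ d := hsum m' ▸ le_totalDegree hm'
    simp at h4 h5
    refine hne (Finsupp.ext fun l => ?_)
    fin_cases l
    · simp only [Fin.zero_eta]
      omega
    · exact h5
  · intro h4
    exact absurd hm h4

variable (S : Surf K)

theorem x_mem_X (i : Fin 3) : S.x i ∈ S.X := Submodule.subset_span ⟨i, rfl⟩

theorem chart_X_le (i : Fin 3) : chart S.X (S.x i) ≤ Rp S i := by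
  refine Algebra.adjoin_le ?_
  rintro _ ⟨a, ha, rfl⟩
  induction ha using Submodule.span_induction with
  | mem x hx =>
    obtain ⟨j, rfl⟩ := hx
    exact Algebra.subset_adjoin ⟨j, rfl⟩
  | zero => simp
  | add x y _ _ hx hy =>
    simp only [add_div]
    exact add_mem hx hy
  | smul c x _ hx =>
    simp only [smul_div_assoc]
    exact Subalgebra.smul_mem _ hx c

theorem Rp_le_chart_X (i : Fin 3) : Rp S i ≤ chart S.X (S.x i) :=
  Algebra.adjoin_le (by rintro _ ⟨j, rfl⟩; exact div_mem_chart (x_mem_X S j))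

variable {S}

theorem div_mem_Rp {n : ℤ} {q : K} (hq : q ∈ S.Xp n) (i : Fin 3) : q / S.x i ^ n ∈ Rp S i := by
  unfold Surf.Xp at hq
  split_ifs at hq with hn
  · obtain ⟨k, rfl⟩ := Int.eq_ofNat_of_zero_le hn
    rw [zpow_natCast]
    exact chart_X_le S i (pow_div_mem_chart _ hq)
  · rw [(Submodule.mem_bot ℂ).1 hq, zero_div]
    exact zero_mem _

theorem mul_aeval_mem {p : MvPolynomial (Fin 2) ℂ} {k : ℕ} (hp : p.totalDegree ≤ k) :
    aeval (yc S 0) p * S.x 0 ^ k ∈ S.X ^ k := by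
  rw [p.as_sum, map_sum, Finset.sum_mul]
  refine sum_mem fun m hm => ?_
  have h1 := (le_totalDegree hm).trans hp
  rw [Finsupp.sum_fintype _ _ (fun _ => rfl), Fin.sum_univ_two] at h1
  obtain ⟨e, rfl⟩ := Nat.exists_eq_add_of_le h1
  have h2 : aeval (yc S 0) (monomial m (coeff m p)) * S.x 0 ^ (m 0 + m 1 + e) =
      coeff m p • (S.x 1 ^ m 0 * S.x 2 ^ m 1 * S.x 0 ^ e) := by
    have h0 := S.x_ne 0
    rw [aeval_monomial, Finsupp.prod_fintype _ _ (by simp), Fin.prod_univ_two, Algebra.smul_def]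
    change _ * ((S.x 1 / S.x 0) ^ m 0 * (S.x 2 / S.x 0) ^ m 1) * _ = _
    rw [div_pow, div_pow]
    field_simp
    ring
  rw [h2, pow_add S.X, pow_add S.X]
  exact Submodule.smul_mem _ _ (Submodule.mul_mem_mul (Submodule.mul_mem_mul
    (Submodule.pow_mem_pow _ (x_mem_X S 1) _) (Submodule.pow_mem_pow _ (x_mem_X S 2) _))
    (Submodule.pow_mem_pow _ (x_mem_X S 0) _))

/-- A function with polynomial expressions in two charts of the plane is a form. -/
theorem mem_Xp (hL : S.Loc) {n : ℤ} {q : K} (h0 : q / S.x 0 ^ n ∈ Rp S 0)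
    (h1 : q / S.x 1 ^ n ∈ Rp S 1) : q ∈ S.Xp n := by
  obtain ⟨p, hp⟩ := (mem_Rp S).1 h0
  obtain ⟨r, hr⟩ := (mem_Rp S).1 h1
  have hx0 := S.x_ne 0
  have hx1 := S.x_ne 1
  have hq : q = aeval (yc S 0) p * S.x 0 ^ n := by
    rw [hp, div_mul_cancel₀ _ (zpow_ne_zero _ hx0)]
  by_cases hp0 : p = 0
  · rw [hq, hp0, map_zero, zero_mul]
    exact zero_mem _
  have e1 : yc S 1 = ![S.x 0 / S.x 1, S.x 2 / S.x 1] := by
    ext1 l
    fin_cases l <;> rfl
  have e0 : yc S 0 = ![(S.x 0 / S.x 1)⁻¹, S.x 2 / S.x 1 / (S.x 0 / S.x 1)] := by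
    ext1 l
    fin_cases l
    · exact (inv_div _ _).symm
    · exact (div_div_div_cancel_right₀ hx1 _ _).symm
  have h2 := totalDegree_le_of_eq (e1 ▸ (yc_trb hL 1).1) (div_ne_zero hx0 hx1) hp0 (N := n)
    (r := r) (by rw [← e0, ← e1, hr, hq, div_zpow, mul_div_assoc])
  have hn : 0 ≤ n := le_trans (Int.natCast_nonneg _) h2
  obtain ⟨k, rfl⟩ := Int.eq_ofNat_of_zero_le hn
  rw [Surf.Xp, if_pos hn, hq, zpow_natCast]
  exact mul_aeval_mem (by exact_mod_cast h2)

variable (S)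

theorem div_mem_F (i j : Fin 3) : S.x j / S.x i ∈ S.F := by
  have h : ∀ j, S.x j / S.x 0 ∈ S.F := by
    intro j
    fin_cases j
    · simp only [Fin.zero_eta, div_self (S.x_ne 0)]
      exact one_mem _
    · exact IntermediateField.subset_adjoin _ _ (Or.inl rfl)
    · exact IntermediateField.subset_adjoin _ _ (Or.inr rfl)
  rw [← div_div_div_cancel_right₀ (S.x_ne 0)]
  exact div_mem (h j) (h i)

theorem F_eq (i : Fin 3) : S.F = IntermediateField.adjoin ℂ (Set.range (yc S i)) := by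
  have h : ∀ j, S.x j / S.x i ∈ IntermediateField.adjoin ℂ (Set.range (yc S i)) := fun j =>
    IntermediateField.algebra_adjoin_le_adjoin _ _
      (Rp_eq S i ▸ (Algebra.subset_adjoin ⟨j, rfl⟩ : S.x j / S.x i ∈ Rp S i))
  refine le_antisymm (IntermediateField.adjoin_le_iff.2 ?_) (IntermediateField.adjoin_le_iff.2 ?_)
  · rintro _ (rfl | rfl) <;> rw [← div_div_div_cancel_right₀ (S.x_ne i)] <;>
      exact div_mem (h _) (h _)
  · rintro _ ⟨j, rfl⟩
    exact div_mem_F S _ _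

theorem Rp_le_F (i : Fin 3) {r : K} (hr : r ∈ Rp S i) : r ∈ S.F :=
  (Algebra.adjoin_le (S := S.F.toSubalgebra)
    (by rintro _ ⟨j, rfl⟩; exact div_mem_F S i j) : Rp S i ≤ _) hr

theorem exists_frac_F (i : Fin 3) {z : K} (hz : z ∈ S.F) :
    ∃ a b : MvPolynomial (Fin 2) ℂ, aeval (yc S i) b ≠ 0 ∧
      z * aeval (yc S i) b = aeval (yc S i) a := by
  rw [F_eq S i, IntermediateField.mem_adjoin_range_iff] at hz
  obtain ⟨a, b, rfl⟩ := hz
  by_cases hb : aeval (yc S i) b = 0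
  · exact ⟨0, 1, by simp, by simp [hb]⟩
  · exact ⟨a, b, hb, div_mul_cancel₀ _ hb⟩

theorem tr_div (n : ℤ) (f : K) (i : Fin 3) : S.tr n f / S.x i ^ (n - 3) =
    (Algebra.trace S.F K (f / (S.x 0 ^ (3 : ℤ) * S.x i ^ (n - 3))) : K) := by
  have h1 : f / (S.x 0 ^ (3 : ℤ) * S.x i ^ (n - 3)) =
      (⟨_, zpow_mem (div_mem_F S i 0) (n - 3)⟩ : S.F) • (f / S.x 0 ^ n) := by
    have h0 := S.x_ne 0
    have hi := S.x_ne i
    change _ = (S.x 0 / S.x i) ^ (n - 3) * (f / S.x 0 ^ n)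
    rw [div_zpow, zpow_sub₀ h0]
    field_simp
  rw [h1, map_smul, Surf.tr, smul_eq_mul, MulMemClass.coe_mul, mul_div_assoc, ← div_zpow, mul_comm]

end Vale.Agent.P297Z.SB
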